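import Vale.Agent.P307.Good

/-!
Changing the size of one large colour class.
-/

namespace Vale.Agent.P307

open Cardinal Set

universe u

lemma card_fib_sub {T X : Type u} (c : X → T) (A : Set X) (t : T) :
    #(fib (fun a : A => c a) t) = #(A ∩ fib c t : Set X) := by
  apply le_antisymm
  · refine Cardinal.mk_le_of_injective (f := fun x => ⟨(x.1 : X), x.1.2, x.2⟩) ?_
    intro x y h
    have h' := congrArg Subtype.val h
    exact Subtype.ext (Subtype.ext h')
  · refine Cardinal.mk_le_of_injective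
      (f := fun x : (A ∩ fib c t : Set X) => (⟨⟨x.1, x.2.1⟩, x.2.2⟩ : fib (fun a : A => c a) t)) ?_
    intro x y h
    have h' := congrArg (fun z => (z.1 : X)) h
    exact Subtype.ext h'

lemma card_inter_sub {T X : Type u} (c : X → T) (A P : Set X) (hPA : P ⊆ A) (t : T) :
    #(P ∩ fib c t : Set X) ≤ #({b : A | (b : X) ∈ P} ∩ fib (fun a : A => c a) t : Set A) := by
  refine Cardinal.mk_le_of_injective
    (f := fun x : (P ∩ fib c t : Set X) =>
      (⟨⟨x.1, hPA x.2.1⟩, x.2.1, x.2.2⟩ : ({b : A | (b : X) ∈ P} ∩ fib (fun a : A => c a) t : Set A)))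
    ?_
  intro x y h
  have h' := congrArg (fun z => (z.1 : X)) h
  exact Subtype.ext h'

/-- the sizes at most that of the given class. -/
lemma blow_down {T : Type u} {χ : Cardinal.{u}} (K : ColAEC T χ) (hχ : ℵ₀ ≤ χ) (hT : #T ≤ χ)
    (X : Type u) (c : X → T) (hX : K.Cl X c) (t0 : T) (ν : Cardinal.{u}) (hν : χ ≤ ν)
    (hν2 : ν ≤ #(fib c t0)) (ht0 : χ < #(fib c t0))
    (Y : Type u) (d : Y → T) (h1 : ∀ t ≠ t0, #(fib d t) = #(fib c t)) (h2 : #(fib d t0) = ν) :
    K.Cl Y d ∧ ∀ B : Set Y, (∀ t ≠ t0, fib d t ⊆ B) → χ ≤ #(B ∩ fib d t0 : Set Y) →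
      K.St Y d B := by
  obtain ⟨A0, hA0, hA0c⟩ := Cardinal.le_mk_iff_exists_subset.1 hν2
  set A : Set X := (fib c t0)ᶜ ∪ A0 with hA
  have hAt : ∀ t ≠ t0, fib c t ⊆ A := by
    intro t ht x hx
    left
    intro hx0
    simp only [fib, Set.mem_ofPred_eq] at hx hx0
    exact ht (hx.symm.trans hx0)
  have hAt0 : A ∩ fib c t0 = A0 := by
    ext x
    simp only [hA, Set.mem_inter_iff, Set.mem_union, Set.mem_compl_iff]
    constructor
    · rintro ⟨h | h, h'⟩
      · exact absurd h' h
      · exact h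
    · intro h
      exact ⟨Or.inr h, hA0 h⟩
  have hgood : Good χ c A := by
    intro t
    by_cases ht : t = t0
    · subst ht
      refine ⟨fun h => absurd h (not_le.2 ht0), fun _ => ?_⟩
      rw [hAt0, hA0c]; exact hν
    · refine ⟨fun _ => hAt t ht, fun h => ?_⟩
      rw [Set.inter_eq_right.2 (hAt t ht)]; exact h.le
  have hSt := good_strong K hχ hT X c hX A hgood
  have hcards : ∀ t, #(fib (fun a : A => c a) t) = #(fib d t) := by
    intro t
    rw [card_fib_sub]
    by_cases ht : t = t0
    · subst ht; rw [hAt0, hA0c, h2]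
    · rw [Set.inter_eq_right.2 (hAt t ht), h1 t ht]
  obtain ⟨e, he⟩ := exists_equiv (fun a : A => c a) d hcards
  have hfun : (fun a => d (e a)) = (fun a : A => c a) := funext he
  have hClY : K.Cl Y d := by
    have h3 := K.univ A (fun a : A => c a) (K.cl_sub X c A hSt)
    rw [← hfun] at h3
    exact K.cl_self Y d _ (K.iso A Y e d Set.univ h3)
  refine ⟨hClY, fun B hB1 hB2 => ?_⟩
  set B2 : Set X := Subtype.val '' (e ⁻¹' B) with hB2def
  have hB2A : B2 ⊆ A := by
    rintro x ⟨a, _, rfl⟩; exact a.2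
  have hsub : ∀ t ≠ t0, fib c t ⊆ B2 := by
    intro t ht x hx
    refine ⟨⟨x, hAt t ht hx⟩, ?_, rfl⟩
    apply hB1 t ht
    change d (e ⟨x, hAt t ht hx⟩) = t
    rw [he]; exact hx
  have hgood2 : Good χ c B2 := by
    intro t
    by_cases ht : t = t0
    · subst ht
      refine ⟨fun h => absurd h (not_le.2 ht0), fun _ => hB2.trans ?_⟩
      refine Cardinal.mk_le_of_injective
        (f := fun y : (B ∩ fib d t : Set Y) => (⟨(e.symm y.1 : A), ⟨e.symm y.1,
          by simpa using y.2.1, rfl⟩, by
            change c (e.symm y.1 : A) = t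
            rw [← he, Equiv.apply_symm_apply]; exact y.2.2⟩ : (B2 ∩ fib c t : Set X))) ?_
      intro x y h
      have h' := congrArg Subtype.val h
      exact Subtype.ext (e.symm.injective (Subtype.ext h'))
    · refine ⟨fun _ => hsub t ht, fun h => ?_⟩
      rw [Set.inter_eq_right.2 (hsub t ht)]; exact h.le
  have hSt2 := good_strong K hχ hT X c hX B2 hgood2
  have h4 := K.coh X c B2 A hB2A hSt2 hSt
  have h5 : {b : A | (b : X) ∈ B2} = e ⁻¹' B := by
    ext b
    simp only [hB2def, Set.mem_ofPred_eq, Set.mem_image, Subtype.exists, exists_and_right,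
      exists_eq_right, Subtype.coe_eta, Subtype.coe_prop, exists_const]
  rw [h5, ← hfun] at h4
  have h6 := K.iso A Y e d (e ⁻¹' B) h4
  rw [Equiv.image_preimage] at h6
  exact h6

theorem blow_up {T : Type u} {χ : Cardinal.{u}} (K : ColAEC T χ) (hχ : ℵ₀ ≤ χ) (hT : #T ≤ χ)
    (X : Type u) (c : X → T) (hX : K.Cl X c) (t0 : T) (ht0 : χ < #(fib c t0)) :
    ∀ ν : Cardinal.{u}, χ ≤ ν → ∀ (Y : Type u) (d : Y → T),
      (∀ t ≠ t0, #(fib d t) = #(fib c t)) → #(fib d t0) = ν →
      K.Cl Y d ∧ ∀ B : Set Y, (∀ t ≠ t0, fib d t ⊆ B) → χ ≤ #(B ∩ fib d t0 : Set Y) →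
        K.St Y d B := by
  intro ν
  induction ν using Cardinal.lt_wf.induction with
  | h ν ih =>
    intro hν Y d h1 h2
    rcases le_or_gt ν (#(fib c t0)) with hle | hlt
    · exact blow_down K hχ hT X c hX t0 ν hν hle ht0 Y d h1 h2
    set F : Set Y := fib d t0 with hF
    have hFinf : ℵ₀ ≤ #F := by rw [h2]; exact hχ.trans hν
    have hχν : χ < ν := ht0.trans hlt
    have hcompl : ∀ t ≠ t0, fib d t ⊆ Fᶜ := by
      intro t ht x hx hx0
      simp only [hF, fib, Set.mem_ofPred_eq] at hx hx0
      exact ht (hx.symm.trans hx0)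
    -- the induction hypothesis for subsets
    have hPQ : ∀ P Q : Set Y, P ⊆ Q → Fᶜ ⊆ P → χ ≤ #(P ∩ F : Set Y) → #(Q ∩ F : Set Y) < ν →
        K.St Q (fun b => d b) {b | (b : Y) ∈ P} := by
      intro P Q hPQ hP1 hP2 hQ
      have h3 := ih (#(Q ∩ F : Set Y)) hQ
        (hP2.trans (Cardinal.mk_le_mk_of_subset (Set.inter_subset_inter_left _ hPQ)))
        Q (fun b => d b) (by
          intro t ht
          rw [card_fib_sub, Set.inter_eq_right.2 ((hcompl t ht).trans (hP1.trans hPQ)), h1 t ht])
        (card_fib_sub d Q t0)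
      apply h3.2
      · intro t ht b hb
        exact hP1 (hcompl t ht hb)
      · exact hP2.trans (card_inter_sub d Q P hPQ t0)
    have hc1 : ∀ B0 : Set Y, Fᶜ ⊆ B0 → χ ≤ #(B0 ∩ F : Set Y) → #(B0 ∩ F : Set Y) < ν →
        K.Cl Y d ∧ K.St Y d B0 := by
      intro B0 hB0 hB1 hB2
      obtain ⟨ι, i1, i2, i3, Z, hZm, hZc, hZu⟩ := exists_filtration F hFinf
      have hlt2 : ∀ i, #((B0 ∪ Z i) ∩ F : Set Y) < ν := by
        intro i
        have h3 : (B0 ∪ Z i) ∩ F ⊆ (B0 ∩ F) ∪ Z i := by
          rintro x ⟨h | h, h'⟩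
          · exact Or.inl ⟨h, h'⟩
          · exact Or.inr h
        refine lt_of_le_of_lt (Cardinal.mk_le_mk_of_subset h3)
          (lt_of_le_of_lt (Cardinal.mk_union_le _ _) ?_)
        refine Cardinal.add_lt_of_lt (hχ.trans hν) hB2 ?_
        rw [← h2]; exact hZc i
      have hch := K.chain Y d ι (fun i => B0 ∪ Z i)
        (fun i j hij => Set.union_subset_union_right _ (hZm hij))
        (by
          intro x
          by_cases hx : x ∈ F
          · rw [← hZu] at hx
            obtain ⟨i, hi⟩ := Set.mem_iUnion.1 hx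
            exact ⟨i, Or.inr hi⟩
          · exact ⟨Classical.arbitrary ι, Or.inl (hB0 hx)⟩)
        (by
          intro i j hij
          apply hPQ _ _ (Set.union_subset_union_right _ (hZm hij))
            (hB0.trans Set.subset_union_left) _ (hlt2 j)
          exact hB1.trans (Cardinal.mk_le_mk_of_subset
            (Set.inter_subset_inter_left _ Set.subset_union_left)))
      refine ⟨hch.1, ?_⟩
      have i0 := Classical.arbitrary ι
      exact K.trans Y d B0 (B0 ∪ Z i0) Set.subset_union_left (hch.2 i0)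
        (hPQ _ _ Set.subset_union_left hB0 hB1 (hlt2 i0))
    have hinter : ∀ Z : Set Y, Z ⊆ F → (Fᶜ ∪ Z) ∩ F = Z := by
      intro Z hZ
      ext x
      simp only [Set.mem_inter_iff, Set.mem_union, Set.mem_compl_iff]
      constructor
      · rintro ⟨h | h, h'⟩
        · exact absurd h' h
        · exact h
      · intro h
        exact ⟨Or.inr h, hZ h⟩
    constructor
    · have h3 : χ ≤ #F := by rw [h2]; exact hν
      obtain ⟨B0, hB0, hB0c⟩ := Cardinal.le_mk_iff_exists_subset.1 h3
      refine (hc1 (Fᶜ ∪ B0) Set.subset_union_left ?_ ?_).1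
      · rw [hinter B0 hB0, hB0c]
      · rw [hinter B0 hB0, hB0c]; exact hχν
    · intro B hB1 hB2
      have hBF : Fᶜ ⊆ B := by
        intro x hx
        exact hB1 (d x) (fun h => hx h) rfl
      rcases lt_or_ge (#(B ∩ F : Set Y)) ν with hlt2 | hge
      · exact (hc1 B hBF hB2 hlt2).2
      · have hBc : #(B ∩ F : Set Y) = ν := le_antisymm
          (by rw [← h2]; exact Cardinal.mk_le_mk_of_subset Set.inter_subset_right) hge
        obtain ⟨B0, hB0, hB0c⟩ := Cardinal.le_mk_iff_exists_subset.1 hB2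
        obtain ⟨ι, i1, i2, i3, Z, hZm, hZc, hZu⟩ := exists_filtration (B ∩ F)
          (by rw [hBc]; exact hχ.trans hν)
        have hZF : ∀ i, Z i ⊆ B ∩ F := by
          intro i; rw [← hZu]; exact Set.subset_iUnion Z i
        have hU : B = ⋃ i, (Fᶜ ∪ (B0 ∪ Z i)) := by
          rw [← Set.union_iUnion, ← Set.union_iUnion, hZu, Set.union_eq_right.2 hB0]
          ext x
          simp only [Set.mem_union, Set.mem_compl_iff, Set.mem_inter_iff]
          constructor
          · intro h
            by_cases hx : x ∈ F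
            · exact Or.inr ⟨h, hx⟩
            · exact Or.inl hx
          · rintro (h | h)
            · exact hBF h
            · exact h.1
        rw [hU]
        apply K.chain2 Y d ι
        · intro i j hij
          exact Set.union_subset_union_right _ (Set.union_subset_union_right _ (hZm hij))
        · intro i
          have h3 : (Fᶜ ∪ (B0 ∪ Z i)) ∩ F = B0 ∪ Z i :=
            hinter _ (Set.union_subset (hB0.trans Set.inter_subset_right)
              ((hZF i).trans Set.inter_subset_right))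
          refine (hc1 _ Set.subset_union_left ?_ ?_).2
          · rw [h3, ← hB0c]
            exact Cardinal.mk_le_mk_of_subset Set.subset_union_left
          · rw [h3]
            refine lt_of_le_of_lt (Cardinal.mk_union_le _ _)
              (Cardinal.add_lt_of_lt (hχ.trans hν) ?_ ?_)
            · rw [hB0c]; exact hχν
            · rw [← hBc]; exact hZc i

end Vale.Agent.P307
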