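import Mathlib

/-!
The combinatorial core: classes of coloured sets.
-/

namespace Vale.Agent.P307

open Cardinal Set

universe u

/-- a class of sets coloured by `T`, with a relation of strong subset. -/
structure ColAEC (T : Type u) (χ : Cardinal.{u}) where
  Cl : ∀ (X : Type u), (X → T) → Prop
  St : ∀ (X : Type u) (_ : X → T), Set X → Prop
  cl_sub : ∀ (X : Type u) (c : X → T) (A : Set X), St X c A → Cl A (fun a => c a)
  cl_self : ∀ (X : Type u) (c : X → T) (A : Set X), St X c A → Cl X c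
  univ : ∀ (X : Type u) (c : X → T), Cl X c → St X c Set.univ
  iso : ∀ (X Y : Type u) (e : X ≃ Y) (d : Y → T) (A : Set X),
    St X (fun x => d (e x)) A → St Y d (e '' A)
  coh : ∀ (X : Type u) (c : X → T) (A B : Set X), A ⊆ B → St X c A → St X c B →
    St B (fun b => c b) {b | (b : X) ∈ A}
  trans : ∀ (X : Type u) (c : X → T) (A B : Set X), A ⊆ B → St X c B →
    St B (fun b => c b) {b | (b : X) ∈ A} → St X c A
  chain : ∀ (X : Type u) (c : X → T) (ι : Type u) [LinearOrder ι] [WellFoundedLT ι] [Nonempty ι]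
    (A : ι → Set X), Monotone A → (∀ x, ∃ i, x ∈ A i) →
    (∀ i j, i ≤ j → St (A j) (fun b => c b) {b | (b : X) ∈ A i}) →
    Cl X c ∧ ∀ i, St X c (A i)
  chain2 : ∀ (X : Type u) (c : X → T) (ι : Type u) [LinearOrder ι] [WellFoundedLT ι] [Nonempty ι]
    (A : ι → Set X), Monotone A → (∀ i, St X c (A i)) → St X c (⋃ i, A i)
  ls : ∀ (X : Type u) (c : X → T), Cl X c → ∀ A : Set X, #A ≤ χ →
    ∃ B : Set X, A ⊆ B ∧ #B ≤ χ ∧ St X c B

/-- the set of points of colour `t`. -/
def fib {T X : Type u} (c : X → T) (t : T) : Set X := {x | c x = t}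

lemma exists_equiv {T X Y : Type u} (c : X → T) (d : Y → T) (h : ∀ t, #(fib c t) = #(fib d t)) :
    ∃ e : X ≃ Y, ∀ x, d (e x) = c x := by
  have h1 : ∀ t, Nonempty (fib c t ≃ fib d t) := fun t => Cardinal.eq.1 (h t)
  have e : ∀ t, (fib c t ≃ fib d t) := fun t => (h1 t).some
  let E : X ≃ Y := (Equiv.sigmaFiberEquiv c).symm.trans
    ((Equiv.sigmaCongrRight (fun t => (e t : {x // c x = t} ≃ {y // d y = t}))).trans
      (Equiv.sigmaFiberEquiv d))
  refine ⟨E, fun x => ?_⟩
  exact (e (c x) ⟨x, rfl⟩).2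

lemma exists_equiv_rel {T X Y : Type u} (c : X → T) (d : Y → T) (A : Set X) (B : Set Y)
    (h1 : ∀ t, #(A ∩ fib c t : Set X) = #(B ∩ fib d t : Set Y))
    (h2 : ∀ t, #(fib c t \ A : Set X) = #(fib d t \ B : Set Y)) :
    ∃ e : X ≃ Y, (∀ x, d (e x) = c x) ∧ e '' A = B := by
  classical
  have h : ∀ s : T × ULift.{u} Bool, #(fib (fun x => (c x, ULift.up (decide (x ∈ A)))) s) =
      #(fib (fun y => (d y, ULift.up (decide (y ∈ B)))) s) := by
    rintro ⟨t, ⟨b⟩⟩
    cases b with
    | true =>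
      have e1 : fib (fun x => (c x, ULift.up.{u} (decide (x ∈ A)))) (t, ULift.up true) =
          A ∩ fib c t := by
        ext x
        simp only [fib, Set.mem_ofPred_eq, Prod.mk.injEq, ULift.up.injEq, decide_eq_true_eq, Set.mem_inter_iff]
        tauto
      have e2 : fib (fun y => (d y, ULift.up.{u} (decide (y ∈ B)))) (t, ULift.up true) =
          B ∩ fib d t := by
        ext x
        simp only [fib, Set.mem_ofPred_eq, Prod.mk.injEq, ULift.up.injEq, decide_eq_true_eq, Set.mem_inter_iff]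
        tauto
      rw [e1, e2]; exact h1 t
    | false =>
      have e1 : fib (fun x => (c x, ULift.up.{u} (decide (x ∈ A)))) (t, ULift.up false) =
          fib c t \ A := by
        ext x
        simp only [fib, Set.mem_ofPred_eq, Prod.mk.injEq, ULift.up.injEq, decide_eq_false_iff_not,
          Set.mem_sdiff]
      have e2 : fib (fun y => (d y, ULift.up.{u} (decide (y ∈ B)))) (t, ULift.up false) =
          fib d t \ B := by
        ext x
        simp only [fib, Set.mem_ofPred_eq, Prod.mk.injEq, ULift.up.injEq, decide_eq_false_iff_not,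
          Set.mem_sdiff]
      rw [e1, e2]; exact h2 t
  obtain ⟨e, he⟩ := exists_equiv _ _ h
  refine ⟨e, fun x => congrArg Prod.fst (he x), ?_⟩
  ext y
  constructor
  · rintro ⟨x, hx, rfl⟩
    have h3 := congrArg (fun p => p.2.down) (he x)
    simp only at h3
    exact (decide_eq_decide.1 h3).2 hx
  · intro hy
    refine ⟨e.symm y, ?_, e.apply_symm_apply y⟩
    have h3 := congrArg (fun p => p.2.down) (he (e.symm y))
    simp only [Equiv.apply_symm_apply] at h3
    exact (decide_eq_decide.1 h3).1 hy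

/-- the subset contains all of each small colour class, and `χ` of the points of each large one. -/
def Good {T X : Type u} (χ : Cardinal.{u}) (c : X → T) (A : Set X) : Prop :=
  ∀ t, (#(fib c t) ≤ χ → fib c t ⊆ A) ∧ (χ < #(fib c t) → χ ≤ #(A ∩ fib c t : Set X))

lemma Good.mono {T X : Type u} {χ : Cardinal.{u}} {c : X → T} {A B : Set X} (h : Good χ c A)
    (hAB : A ⊆ B) : Good χ c B := by
  intro t
  refine ⟨fun h1 => ((h t).1 h1).trans hAB, fun h1 => ((h t).2 h1).trans ?_⟩
  exact Cardinal.mk_le_mk_of_subset (Set.inter_subset_inter_left _ hAB)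

/-- a small union of small pieces. -/
lemma card_le_of_fibers {T X : Type u} {χ : Cardinal.{u}} (hχ : ℵ₀ ≤ χ) (hT : #T ≤ χ) (c : X → T)
    (A : Set X) (h : ∀ t, #(A ∩ fib c t : Set X) ≤ χ) : #A ≤ χ := by
  have h1 : A = ⋃ t : T, (A ∩ fib c t) := by
    ext x; simp [fib]
  rw [h1]
  calc #(⋃ t : T, (A ∩ fib c t) : Set X) ≤ Cardinal.sum (fun t => #(A ∩ fib c t : Set X)) :=
        Cardinal.mk_iUnion_le_sum_mk
    _ ≤ Cardinal.sum (fun _ : T => χ) := Cardinal.sum_le_sum _ _ h
    _ = #T * χ := by simp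
    _ ≤ χ * χ := by gcongr
    _ = χ := Cardinal.mul_eq_self hχ

/-- every good set contains a good set of size at most `χ`. -/
lemma exists_good_sub {T X : Type u} {χ : Cardinal.{u}} (hχ : ℵ₀ ≤ χ) (hT : #T ≤ χ) (c : X → T)
    (A : Set X) (hA : Good χ c A) : ∃ B ⊆ A, Good χ c B ∧ #B ≤ χ := by
  have h1 : ∀ t, ∃ B : Set X, B ⊆ A ∩ fib c t ∧ #B ≤ χ ∧
      (#(fib c t) ≤ χ → fib c t ⊆ B) ∧ (χ < #(fib c t) → χ ≤ #B) := by
    intro t
    rcases le_or_gt (#(fib c t)) χ with h | h
    · refine ⟨fib c t, fun x hx => ⟨(hA t).1 h hx, hx⟩, h, fun _ => subset_rfl, fun h' => ?_⟩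
      exact absurd h (not_le.2 h')
    · obtain ⟨B, hB1, hB2⟩ := Cardinal.le_mk_iff_exists_subset.1 ((hA t).2 h)
      exact ⟨B, hB1, hB2.le, fun h' => absurd h (not_lt.2 h'), fun _ => hB2.ge⟩
  choose B hB1 hB2 hB3 hB4 using h1
  have hBt : ∀ t, (⋃ s, B s) ∩ fib c t = B t := by
    intro t
    ext x
    simp only [Set.mem_inter_iff, Set.mem_iUnion]
    constructor
    · rintro ⟨⟨s, hs⟩, hx⟩
      have : s = t := by
        have h2 := (hB1 s hs).2
        simp only [fib, Set.mem_ofPred_eq] at h2 hx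
        rw [← h2, hx]
      rw [← this]; exact hs
    · intro hx
      exact ⟨⟨t, hx⟩, (hB1 t hx).2⟩
  refine ⟨⋃ s, B s, Set.iUnion_subset fun s => (hB1 s).trans Set.inter_subset_left, ?_, ?_⟩
  · intro t
    refine ⟨fun h => (hB3 t h).trans (Set.subset_iUnion B t), fun h => ?_⟩
    rw [hBt t]; exact hB4 t h
  · apply card_le_of_fibers hχ hT c
    intro t
    rw [hBt t]; exact hB2 t

end Vale.Agent.P307
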