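import Mathlib
import Vale.Agent.P307.Defs
import Vale.Agent.P307.Col

/-!
Disjoint unions of structures indexed by coloured sets.
-/

namespace Vale.Agent.P307

open FirstOrder Cardinal Set FirstOrder.Language

universe u

/-- an isomorphism of relational structures from a bijection preserving the relations. -/
def mkIso {L : FirstOrder.Language.{u, u}} [L.IsRelational] {M N : Type u} [L.Structure M]
    [L.Structure N] (e : M ≃ N)
    (h : ∀ (n : ℕ) (r : L.Relations n) (v : Fin n → M),
      Structure.RelMap r (fun i => e (v i)) ↔ Structure.RelMap r v) : M ≃[L] N where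
  toEquiv := e
  map_fun' := fun f => isEmptyElim f
  map_rel' := fun {n} r v => h n r v

/-- every subset of a relational structure is a substructure. -/
def sub (L : FirstOrder.Language.{u, u}) [L.IsRelational] (M : Type u) [L.Structure M]
    (A : Set M) : L.Substructure M where
  carrier := A
  fun_mem := fun f => isEmptyElim f

lemma mem_sub {L : FirstOrder.Language.{u, u}} [L.IsRelational] {M : Type u} [L.Structure M]
    {A : Set M} {x : M} : x ∈ sub L M A ↔ x ∈ A := Iff.rfl

/-- the disjoint union of the structures `D (c x)`. -/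
def MM {T X : Type u} (D : T → Type u) (c : X → T) : Type u := Σ x : X, D (c x)

instance instMM {L : FirstOrder.Language.{u, u}} [L.IsRelational] {T X : Type u} (D : T → Type u)
    [∀ t, L.Structure (D t)] (c : X → T) : L.Structure (MM D c) where
  funMap := fun f _ => isEmptyElim f
  RelMap := fun {n} r v => ∃ (x : X) (w : Fin n → D (c x)),
    (∀ i, v i = ⟨x, w i⟩) ∧ Structure.RelMap r w

lemma relMap_MM {L : FirstOrder.Language.{u, u}} [L.IsRelational] {T X : Type u} (D : T → Type u)
    [∀ t, L.Structure (D t)] (c : X → T) {n : ℕ} (r : L.Relations n) (v : Fin n → MM D c) :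
    Structure.RelMap r v ↔ ∃ (x : X) (w : Fin n → D (c x)),
      (∀ i, v i = ⟨x, w i⟩) ∧ Structure.RelMap r w := Iff.rfl

/-- reindexing. -/
def reindex {L : FirstOrder.Language.{u, u}} [L.IsRelational] {T X Y : Type u} (D : T → Type u)
    [∀ t, L.Structure (D t)] (e : X ≃ Y) (d : Y → T) :
    MM D (fun x => d (e x)) ≃[L] MM D d :=
  mkIso (Equiv.sigmaCongrLeft (β := fun y => D (d y)) e) (by
    intro n r v
    rw [relMap_MM, relMap_MM]
    constructor
    · rintro ⟨y, w, h1, h2⟩
      obtain ⟨x, rfl⟩ := e.surjective y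
      refine ⟨x, w, fun i => ?_, h2⟩
      apply (Equiv.sigmaCongrLeft (β := fun y => D (d y)) e).injective
      exact h1 i
    · rintro ⟨x, w, h1, h2⟩
      refine ⟨e x, w, fun i => ?_, h2⟩
      exact congrArg (Equiv.sigmaCongrLeft (β := fun y => D (d y)) e) (h1 i))

lemma reindex_fst {L : FirstOrder.Language.{u, u}} [L.IsRelational] {T X Y : Type u}
    (D : T → Type u) [∀ t, L.Structure (D t)] (e : X ≃ Y) (d : Y → T)
    (p : MM D (fun x => d (e x))) : ((reindex (L := L) D e d) p).1 = e p.1 := rfl

/-- the substructure of `MM D c` over a set of indices. -/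
def cyl (L : FirstOrder.Language.{u, u}) [L.IsRelational] {T X : Type u} (D : T → Type u)
    [∀ t, L.Structure (D t)] (c : X → T) (A : Set X) : L.Substructure (MM D c) :=
  sub L (MM D c) {p | p.1 ∈ A}

lemma mem_cyl {L : FirstOrder.Language.{u, u}} [L.IsRelational] {T X : Type u} {D : T → Type u}
    [∀ t, L.Structure (D t)] {c : X → T} {A : Set X} {p : MM D c} :
    p ∈ cyl L D c A ↔ p.1 ∈ A := Iff.rfl

lemma sigma_sub_ext {T X : Type u} {D : T → Type u} {c : X → T} {A : Set X} (p : MM D c)
    (hp : p.1 ∈ A) (x : X) (hx : x ∈ A) (w : D (c x)) (h : p = ⟨x, w⟩) :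
    (⟨⟨p.1, hp⟩, p.2⟩ : MM D (fun a : A => c a)) = ⟨⟨x, hx⟩, w⟩ := by
  subst h; rfl

/-- the substructure over `A` is the disjoint union over `A`. -/
def cylIso (L : FirstOrder.Language.{u, u}) [L.IsRelational] [IsEmpty (L.Relations 0)]
    {T X : Type u} (D : T → Type u)
    [∀ t, L.Structure (D t)] (c : X → T) (A : Set X) :
    cyl L D c A ≃[L] MM D (fun a : A => c a) :=
  mkIso
    { toFun := fun p => ⟨⟨p.1.1, p.2⟩, p.1.2⟩
      invFun := fun q => ⟨⟨q.1.1, q.2⟩, q.1.2⟩
      left_inv := fun p => rfl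
      right_inv := fun q => rfl } (by
    intro n r v
    have h0 : Structure.RelMap r v ↔ Structure.RelMap r (fun i => (v i : MM D c)) := Iff.rfl
    rw [h0, relMap_MM, relMap_MM]
    constructor
    · rintro ⟨x, w, h1, h2⟩
      refine ⟨x.1, w, fun i => ?_, h2⟩
      exact congrArg (fun q : MM D (fun a : A => c a) => (⟨q.1.1, q.2⟩ : MM D c)) (h1 i)
    · rintro ⟨x, w, h1, h2⟩
      rcases Nat.eq_zero_or_pos n with hn | hn
      · subst hn; exact isEmptyElim r
      · have hx : x ∈ A := by
          have h3 := (v ⟨0, hn⟩).2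
          rw [mem_cyl, h1] at h3
          exact h3
        exact ⟨⟨x, hx⟩, w, fun i => sigma_sub_ext (v i).1 (v i).2 x hx (w i) (h1 i), h2⟩)

lemma map_cyl_reindex (L : FirstOrder.Language.{u, u}) [L.IsRelational] {T X Y : Type u}
    (D : T → Type u) [∀ t, L.Structure (D t)] (e : X ≃ Y) (d : Y → T) (A : Set X) :
    (cyl L D (fun x => d (e x)) A).map (reindex (L := L) D e d).toHom = cyl L D d (e '' A) := by
  ext p
  rw [Substructure.mem_map, mem_cyl]
  constructor
  · rintro ⟨q, hq, rfl⟩
    exact ⟨q.1, hq, rfl⟩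
  · rintro ⟨x, hx, h⟩
    obtain ⟨q, rfl⟩ := (reindex (L := L) D e d).toEquiv.surjective p
    refine ⟨q, ?_, rfl⟩
    rw [mem_cyl]
    have h1 : e q.1 = e x := h.symm
    rw [e.injective h1]; exact hx

lemma map_comap_cyl (L : FirstOrder.Language.{u, u}) [L.IsRelational] [IsEmpty (L.Relations 0)]
    {T X : Type u} (D : T → Type u) [∀ t, L.Structure (D t)] (c : X → T) (A B : Set X) :
    ((cyl L D c A).comap (cyl L D c B).subtype.toHom).map (cylIso L D c B).toHom =
      cyl L D (fun b : B => c b) {b | (b : X) ∈ A} := by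
  ext p
  rw [Substructure.mem_map, mem_cyl]
  constructor
  · rintro ⟨q, hq, rfl⟩
    exact hq
  · intro h
    obtain ⟨q, rfl⟩ := (cylIso L D c B).toEquiv.surjective p
    exact ⟨q, h, rfl⟩

lemma map_cyl_symm (L : FirstOrder.Language.{u, u}) [L.IsRelational] [IsEmpty (L.Relations 0)]
    {T X : Type u} (D : T → Type u) [∀ t, L.Structure (D t)] (c : X → T) (A B : Set X) :
    (cyl L D (fun b : B => c b) {b | (b : X) ∈ A}).map (cylIso L D c B).symm.toHom =
      (cyl L D c A).comap (cyl L D c B).subtype.toHom := by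
  ext p
  rw [Substructure.mem_map, Substructure.mem_comap]
  constructor
  · rintro ⟨q, hq, rfl⟩
    exact hq
  · intro h
    exact ⟨(cylIso L D c B) p, h, (cylIso L D c B).symm_apply_apply p⟩

lemma map_comap_sub (L : FirstOrder.Language.{u, u}) [L.IsRelational] [IsEmpty (L.Relations 0)]
    {T X : Type u} (D : T → Type u) [∀ t, L.Structure (D t)] (c : X → T) (A B : Set X)
    (h : A ⊆ B) :
    ((cyl L D c A).comap (cyl L D c B).subtype.toHom).map (cyl L D c B).subtype.toHom =
      cyl L D c A := by
  ext p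
  rw [Substructure.mem_map]
  constructor
  · rintro ⟨q, hq, rfl⟩
    exact hq
  · intro hp
    exact ⟨⟨p, h hp⟩, hp, rfl⟩

lemma cyl_mono (L : FirstOrder.Language.{u, u}) [L.IsRelational] {T X : Type u}
    (D : T → Type u) [∀ t, L.Structure (D t)] (c : X → T) {A B : Set X} (h : A ⊆ B) :
    cyl L D c A ≤ cyl L D c B := fun _ hp => h hp

end Vale.Agent.P307
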