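import Mathlib
import Vale.Agent.P307.Mod

/-!
The class of coloured sets attached to an abstract elementary class.
-/

namespace Vale.Agent.P307

open FirstOrder Cardinal Set FirstOrder.Language

universe u

lemma card_cyl_le (L : FirstOrder.Language.{u, u}) [L.IsRelational] {T X : Type u}
    (D : T → Type u) [∀ t, L.Structure (D t)] (c : X → T) {χ : Cardinal.{u}} (hχ : ℵ₀ ≤ χ)
    (hD : ∀ t, #(D t) ≤ χ) (A : Set X) (hA : #A ≤ χ) : #(cyl L D c A) ≤ χ := by
  have h1 : #(cyl L D c A) ≤ #(Σ a : A, D (c a)) := by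
    refine Cardinal.mk_le_of_injective
      (f := fun p : cyl L D c A => (⟨⟨p.1.1, p.2⟩, p.1.2⟩ : Σ a : A, D (c a))) ?_
    intro p q h
    apply Subtype.ext
    exact congrArg (fun s : (Σ a : A, D (c a)) => (⟨s.1.1, s.2⟩ : MM D c)) h
  refine h1.trans ?_
  rw [Cardinal.mk_sigma]
  refine (Cardinal.sum_le_sum _ (fun _ => χ) (fun a => hD _)).trans ?_
  rw [Cardinal.sum_const']
  exact (mul_le_mul' hA le_rfl).trans (Cardinal.mul_eq_self hχ).le

lemma ls_cyl {L : FirstOrder.Language.{u, u}} [L.IsRelational] (K : AEC L) {ℓ χ : Cardinal.{u}}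
    (hℓ : K.IsLS ℓ) (hℓχ : ℓ ≤ χ) (hχ : ℵ₀ ≤ χ) {T X : Type u} (D : T → Type u)
    [∀ t, L.Structure (D t)] (hD : ∀ t, #(D t) ≤ χ) (hD0 : ∀ t, Nonempty (D t)) (c : X → T)
    (hc : K.Mem (MM D c)) (A : Set X) (hA : #A ≤ χ) :
    ∃ B : Set X, A ⊆ B ∧ #B ≤ χ ∧ K.Le (MM D c) (cyl L D c B) := by
  classical
  have step : ∀ A : {A : Set X // #A ≤ χ}, ∃ S : L.Substructure (MM D c), cyl L D c A.1 ≤ S ∧
      K.Le (MM D c) S ∧ #S ≤ χ := by
    intro A
    obtain ⟨S, h1, h2, h3⟩ := hℓ.2.2 (MM D c) hc (cyl L D c A.1)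
    refine ⟨S, h1, h2, h3.trans ?_⟩
    exact (add_le_add (card_cyl_le L D c hχ hD A.1 A.2) hℓχ).trans (Cardinal.add_eq_self hχ).le
  choose S hS1 hS2 hS3 using step
  let f : {A : Set X // #A ≤ χ} → {A : Set X // #A ≤ χ} := fun A =>
    ⟨(fun p : MM D c => p.1) '' (S A : Set (MM D c)), Cardinal.mk_image_le.trans (hS3 A)⟩
  let s : ℕ → {A : Set X // #A ≤ χ} := fun n => f^[n] ⟨A, hA⟩
  have hs : ∀ n, s (n + 1) = f (s n) := fun n => Function.iterate_succ_apply' f n _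
  have h1 : ∀ n, S (s n) ≤ cyl L D c (s (n + 1)).1 := by
    intro n p hp
    rw [mem_cyl, hs]
    exact ⟨p, hp, rfl⟩
  have h2 : ∀ n, cyl L D c (s n).1 ≤ S (s n) := fun n => hS1 _
  have hmono : Monotone (fun n => S (s n)) :=
    monotone_nat_of_le_succ (fun n => (h1 n).trans (h2 (n + 1)))
  have h3 : ∀ n, (s n).1 ⊆ (s (n + 1)).1 := by
    intro n x hx
    obtain ⟨w⟩ := hD0 (c x)
    exact h1 n (h2 n (show (⟨x, w⟩ : MM D c) ∈ cyl L D c (s n).1 from hx))
  refine ⟨⋃ n, (s n).1, ?_, ?_, ?_⟩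
  · exact Set.subset_iUnion (fun n => (s n).1) 0
  · have h4 : (⋃ n, (s n).1) = ⋃ n : ULift.{u} ℕ, (s n.down).1 := by
      ext x
      simp only [Set.mem_iUnion]
      constructor
      · rintro ⟨n, hn⟩; exact ⟨⟨n⟩, hn⟩
      · rintro ⟨n, hn⟩; exact ⟨n.down, hn⟩
    rw [h4]
    refine Cardinal.mk_iUnion_le_sum_mk.trans ?_
    refine (Cardinal.sum_le_sum _ (fun _ => χ) (fun n : ULift.{u} ℕ => (s n.down).2)).trans ?_
    rw [Cardinal.sum_const']
    refine (mul_le_mul' ?_ le_rfl).trans (Cardinal.mul_eq_self hχ).le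
    simpa using hχ
  · refine K.chain_le (MM D c) (ULift.{u} ℕ) (fun n => S (s n.down)) ?_ ?_ ?_ _ ?_
    · intro i j hij
      exact hmono (show i.down ≤ j.down from hij)
    · intro i j hij
      exact K.coherence (MM D c) _ _ (hmono (show i.down ≤ j.down from hij)) (hS2 _) (hS2 _)
    · intro i; exact hS2 _
    · intro p
      rw [mem_cyl, Set.mem_iUnion]
      constructor
      · rintro ⟨n, hn⟩
        exact ⟨⟨n⟩, h2 n hn⟩
      · rintro ⟨n, hn⟩
        exact ⟨n.down + 1, h1 n.down hn⟩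

/-- the class of coloured sets. -/
def toCol {L : FirstOrder.Language.{u, u}} [L.IsRelational] [IsEmpty (L.Relations 0)] (K : AEC L)
    {ℓ χ : Cardinal.{u}}
    (hℓ : K.IsLS ℓ) (hℓχ : ℓ ≤ χ) (hχ : ℵ₀ ≤ χ) {T : Type u} (D : T → Type u)
    [∀ t, L.Structure (D t)] (hD : ∀ t, #(D t) ≤ χ) (hD0 : ∀ t, Nonempty (D t)) : ColAEC T χ where
  Cl := fun X c => K.Mem (MM D c)
  St := fun X c A => K.Le (MM D c) (cyl L D c A)
  cl_sub := fun X c A h => K.mem_iso _ _ (cylIso L D c A) (K.mem_of_le _ _ h).1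
  cl_self := fun X c A h => (K.mem_of_le _ _ h).2
  univ := fun X c h => by
    have h1 := K.le_refl _ h
    have h2 : (⊤ : L.Substructure (MM D c)) = cyl L D c Set.univ := by
      ext p; simp [mem_cyl]
    rwa [h2] at h1
  iso := fun X Y e d A h => by
    have h1 := K.le_iso _ _ (reindex (L := L) D e d) _ h
    rwa [map_cyl_reindex] at h1
  coh := fun X c A B hAB hA hB => by
    have h1 := K.coherence _ _ _ (cyl_mono L D c hAB) hA hB
    have h2 := K.le_iso _ _ (cylIso L D c B) _ h1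
    rwa [map_comap_cyl] at h2
  trans := fun X c A B hAB hB hA => by
    have h1 := K.le_iso _ _ (cylIso L D c B).symm _ hA
    rw [map_cyl_symm] at h1
    have h2 := K.le_trans _ _ _ hB h1
    rwa [map_comap_sub L D c A B hAB] at h2
  chain := fun X c ι _ _ _ A hA hcov h => by
    refine K.chain_mem (MM D c) ι (fun i => cyl L D c (A i)) (fun i j hij => cyl_mono L D c (hA hij))
      (fun p => hcov p.1) ?_
    intro i j hij
    have h1 := K.le_iso _ _ (cylIso L D c (A j)).symm _ (h i j hij)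
    rwa [map_cyl_symm] at h1
  chain2 := fun X c ι _ _ _ A hA h => by
    refine K.chain_le (MM D c) ι (fun i => cyl L D c (A i)) (fun i j hij => cyl_mono L D c (hA hij))
      ?_ h _ ?_
    · intro i j hij
      exact K.coherence _ _ _ (cyl_mono L D c (hA hij)) (h i) (h j)
    · intro p
      rw [mem_cyl, Set.mem_iUnion]
      rfl
  ls := fun X c hc A hA => ls_cyl K hℓ hℓχ hχ D hD hD0 c hc A hA

end Vale.Agent.P307
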