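import Mathlib
import Vale.Agent.P307.Mod

/-!
Connected components of relational structures, and a family of representatives of the small
connected structures.
-/

namespace Vale.Agent.P307

open FirstOrder Cardinal Set FirstOrder.Language

universe u

/-- two points occurring in a common related tuple. -/
def Adj (L : FirstOrder.Language.{u, u}) (M : Type u) [L.Structure M] (a b : M) : Prop :=
  ∃ (n : ℕ) (r : L.Relations n) (v : Fin n → M) (i j : Fin n),
    Structure.RelMap r v ∧ a = v i ∧ b = v j

/-- the relation of lying in one component. -/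
def conn (L : FirstOrder.Language.{u, u}) (M : Type u) [L.Structure M] : Setoid M :=
  Relation.EqvGen.setoid (Adj L M)

/-- connectedness. -/
def Connected (L : FirstOrder.Language.{u, u}) (M : Type u) [L.Structure M] : Prop :=
  ∀ a b : M, conn L M a b

lemma conn_map {L : FirstOrder.Language.{u, u}} {M N : Type u} [L.Structure M] [L.Structure N]
    (f : M → N) (hf : ∀ (n : ℕ) (r : L.Relations n) (v : Fin n → M), Structure.RelMap r v →
      Structure.RelMap r (fun i => f (v i))) (a b : M) (h : conn L M a b) :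
    conn L N (f a) (f b) := by
  have h' : Relation.EqvGen (Adj L M) a b := h
  clear h
  show Relation.EqvGen (Adj L N) (f a) (f b)
  induction h' with
  | rel a b h =>
    obtain ⟨n, r, v, i, j, h1, rfl, rfl⟩ := h
    exact Relation.EqvGen.rel _ _ ⟨n, r, fun i => f (v i), i, j, hf n r v h1, rfl, rfl⟩
  | refl a => exact Relation.EqvGen.refl _
  | symm a b _ ih => exact Relation.EqvGen.symm _ _ ih
  | trans a b c _ _ ih1 ih2 => exact Relation.EqvGen.trans _ _ _ ih1 ih2

lemma relMap_iso {L : FirstOrder.Language.{u, u}} {M N : Type u} [L.Structure M] [L.Structure N]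
    (f : M ≃[L] N) (n : ℕ) (r : L.Relations n) (v : Fin n → M) :
    Structure.RelMap r (fun i => f (v i)) ↔ Structure.RelMap r v :=
  f.map_rel' r v

lemma connected_of_iso {L : FirstOrder.Language.{u, u}} {M N : Type u} [L.Structure M]
    [L.Structure N] (f : M ≃[L] N) (h : Connected L M) : Connected L N := by
  intro a b
  have h1 := conn_map f (fun n r v => (relMap_iso f n r v).2) _ _ (h (f.symm a) (f.symm b))
  simpa using h1

lemma conn_of_related {L : FirstOrder.Language.{u, u}} {M : Type u} [L.Structure M] {n : ℕ}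
    (r : L.Relations n) (v : Fin n → M) (h : Structure.RelMap r v) (i j : Fin n) :
    conn L M (v i) (v j) :=
  Relation.EqvGen.rel _ _ ⟨n, r, v, i, j, h, rfl, rfl⟩

/-- the component of a class. -/
def comp (L : FirstOrder.Language.{u, u}) [L.IsRelational] (M : Type u) [L.Structure M]
    (x : Quotient (conn L M)) : L.Substructure M :=
  sub L M {a | Quotient.mk (conn L M) a = x}

lemma mem_comp {L : FirstOrder.Language.{u, u}} [L.IsRelational] {M : Type u} [L.Structure M]
    {x : Quotient (conn L M)} {a : M} : a ∈ comp L M x ↔ Quotient.mk (conn L M) a = x := Iff.rfl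

lemma comp_connected {L : FirstOrder.Language.{u, u}} [L.IsRelational] {M : Type u}
    [L.Structure M] (x : Quotient (conn L M)) : Connected L (comp L M x) := by
  have key : ∀ a b : M, Relation.EqvGen (Adj L M) a b → ∀ (ha : a ∈ comp L M x)
      (hb : b ∈ comp L M x), Relation.EqvGen (Adj L (comp L M x)) ⟨a, ha⟩ ⟨b, hb⟩ := by
    intro a b h
    induction h with
    | rel a b h =>
      intro ha hb
      obtain ⟨n, r, v, i, j, h1, h2, h3⟩ := h
      have hv : ∀ k, v k ∈ comp L M x := by
        intro k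
        rw [mem_comp, ← (mem_comp.1 ha)]
        apply Quotient.sound
        show conn L M (v k) a
        rw [h2]
        exact conn_of_related r v h1 k i
      refine Relation.EqvGen.rel _ _ ⟨n, r, fun k => ⟨v k, hv k⟩, i, j, h1, ?_, ?_⟩
      · exact Subtype.ext h2
      · exact Subtype.ext h3
    | refl a => intro ha hb; exact Relation.EqvGen.refl _
    | symm a b _ ih => intro ha hb; exact Relation.EqvGen.symm _ _ (ih hb ha)
    | trans a b c h1 _ ih1 ih2 =>
      intro ha hc
      have hb : b ∈ comp L M x := by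
        rw [mem_comp, ← (mem_comp.1 ha)]
        apply Quotient.sound
        exact Relation.EqvGen.symm _ _ h1
      exact Relation.EqvGen.trans _ _ _ (ih1 ha hb) (ih2 hb hc)
  intro a b
  apply key a.1 b.1
  have h : Quotient.mk (conn L M) a.1 = Quotient.mk (conn L M) b.1 :=
    (mem_comp.1 a.2).trans (mem_comp.1 b.2).symm
  exact Quotient.exact h

/-- a code of a structure. -/
abbrev Code (L : FirstOrder.Language.{u, u}) (Λ : Type u) : Type u :=
  Set Λ × Set (Σ n : ℕ, L.Relations n × (Fin n → Λ))

/-- the domain of the coded structure. -/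
def CD {L : FirstOrder.Language.{u, u}} {Λ : Type u} (p : Code L Λ) : Type u := p.1

instance instCD {L : FirstOrder.Language.{u, u}} [L.IsRelational] {Λ : Type u} (p : Code L Λ) :
    L.Structure (CD p) where
  funMap := fun f _ => isEmptyElim f
  RelMap := fun {n} r v => (⟨n, r, fun i => (v i).1⟩ : Σ n : ℕ, L.Relations n × (Fin n → Λ)) ∈ p.2

lemma exists_code (L : FirstOrder.Language.{u, u}) [L.IsRelational] (Λ M : Type u)
    [L.Structure M] (h : #M ≤ #Λ) : ∃ p : Code L Λ, Nonempty (CD p ≃[L] M) := by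
  obtain ⟨g⟩ := h
  let p : Code L Λ := (Set.range g, {s | ∃ v : Fin s.1 → M, (∀ i, s.2.2 i = g (v i)) ∧
    Structure.RelMap s.2.1 v})
  refine ⟨p, ⟨(mkIso (N := CD p) (Equiv.ofInjective g g.injective) ?_).symm⟩⟩
  intro n r v
  constructor
  · rintro ⟨w, h1, h2⟩
    have h3 : v = w := by
      funext i
      exact g.injective (h1 i)
    rw [h3]; exact h2
  · intro h1
    exact ⟨v, fun i => rfl, h1⟩

lemma card_code (L : FirstOrder.Language.{u, u}) (Λ : Type u) (h : ℵ₀ ≤ #Λ) (hL : L.card ≤ #Λ) :
    #(Code L Λ) ≤ 2 ^ #Λ := by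
  have : Infinite Λ := Cardinal.infinite_iff.2 h
  have h1 : #(Σ n : ℕ, L.Relations n × (Fin n → Λ)) ≤ #Λ := by
    have h2 : #(Σ n : ℕ, L.Relations n × (Fin n → Λ)) ≤ #(L.Symbols × List Λ) := by
      refine Cardinal.mk_le_of_injective
        (f := fun s => (Sum.inr ⟨s.1, s.2.1⟩, List.ofFn s.2.2)) ?_
      rintro ⟨n, r, v⟩ ⟨m, r', v'⟩ h3
      simp only [Prod.mk.injEq, Sum.inr.injEq, Sigma.mk.injEq] at h3
      obtain ⟨⟨rfl, h4⟩, h5⟩ := h3
      rw [eq_of_heq h4, List.ofFn_injective h5]
    refine h2.trans ?_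
    rw [Cardinal.mk_prod, Cardinal.lift_id, Cardinal.lift_id, Cardinal.mk_list_eq_mk]
    exact (mul_le_mul' hL le_rfl).trans (Cardinal.mul_eq_self h).le
  have h5 : #(Code L Λ) = 2 ^ #Λ * 2 ^ #(Σ n : ℕ, L.Relations n × (Fin n → Λ)) := by
    rw [Cardinal.mk_prod, Cardinal.lift_id, Cardinal.lift_id, Cardinal.mk_set, Cardinal.mk_set]
  rw [h5]
  have h6 : (2 : Cardinal.{u}) ^ #(Σ n : ℕ, L.Relations n × (Fin n → Λ)) ≤ 2 ^ #Λ :=
    Cardinal.power_le_power_left two_ne_zero h1
  have h7 : ℵ₀ ≤ (2 : Cardinal.{u}) ^ #Λ := h.trans (Cardinal.cantor _).le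
  exact (mul_le_mul' le_rfl h6).trans (Cardinal.mul_eq_self h7).le

end Vale.Agent.P307
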