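import Mathlib
import Vale.Agent.P307.Defs

/-!
Disjoint unions of copies of a relational structure.
-/

namespace Vale.Agent.P307

open FirstOrder Cardinal FirstOrder.Language

universe u

/-- the disjoint union of copies of `M` indexed by `I`. -/
def Copies (I M : Type u) : Type u := I × M

/-- in the disjoint union of copies of `M`, a tuple is related if it lies in one copy and is
related there. -/
instance instCopies {L : FirstOrder.Language.{u, u}} [L.IsRelational] (I M : Type u)
    [L.Structure M] : L.Structure (Copies I M) where
  funMap := fun f _ => isEmptyElim f
  RelMap := fun {n} (r : L.Relations n) (v : Fin n → Copies I M) =>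
    ∃ i : I, (∀ k, (v k).1 = i) ∧ Structure.RelMap r (fun k => (v k).2)

/-- `K` is closed under disjoint unions of infinitely many copies of one member. -/
def AEC.ClosedCopies {L : FirstOrder.Language.{u, u}} [L.IsRelational] (K : AEC L) : Prop :=
  ∀ (M : Type u) [L.Structure M], K.Mem M → ∀ (I : Type u) [Infinite I], K.Mem (Copies I M)

end Vale.Agent.P307
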