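import Mathlib
import Vale.Agent.P307.Conn

/-!
Decomposition of a structure into its components, and invariance.
-/

namespace Vale.Agent.P307

open FirstOrder Cardinal Set FirstOrder.Language

universe u

/-- a point of `MM D c`. -/
def pnt {T X : Type u} {D : T → Type u} {c : X → T} (x : X) (a : D (c x)) : MM D c := ⟨x, a⟩

lemma pnt_fst {T X : Type u} {D : T → Type u} {c : X → T} (x : X) (a : D (c x)) :
    (pnt x a : MM D c).1 = x := rfl

lemma pnt_inj {T X : Type u} {D : T → Type u} {c : X → T} {x : X} {a b : D (c x)}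
    (h : (pnt x a : MM D c) = pnt x b) : a = b := eq_of_heq (Sigma.mk.inj h).2

lemma exists_pnt {T X : Type u} {D : T → Type u} {c : X → T} (p : MM D c) (x : X) (h : p.1 = x) :
    ∃ w : D (c x), p = pnt x w := by
  subst h
  exact ⟨p.2, rfl⟩

/-- representatives of the small connected structures. -/
lemma exists_family (L : FirstOrder.Language.{u, u}) [L.IsRelational] (ρ : Cardinal.{u})
    (hρ : ℵ₀ ≤ ρ) (hL : L.card ≤ ρ) :
    ∃ (T : Type u) (D : T → Type u) (_ : ∀ t, L.Structure (D t)), #T ≤ 2 ^ ρ ∧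
      (∀ t, #(D t) ≤ ρ) ∧ (∀ t, Nonempty (D t)) ∧ (∀ t, Connected L (D t)) ∧
      (∀ s t, Nonempty (D s ≃[L] D t) → s = t) ∧
      ∀ (C : Type u) [L.Structure C], #C ≤ ρ → Nonempty C → Connected L C →
        ∃ t, Nonempty (D t ≃[L] C) := by
  classical
  obtain ⟨Λ, hΛ⟩ : ∃ Λ : Type u, #Λ = ρ := ⟨ρ.out, Cardinal.mk_out ρ⟩
  let P := {p : Code L Λ // Nonempty (CD p) ∧ Connected L (CD p)}
  let st : Setoid P :=
    { r := fun p q => Nonempty (CD p.1 ≃[L] CD q.1)
      iseqv := ⟨fun p => ⟨Language.Equiv.refl L _⟩, fun ⟨e⟩ => ⟨e.symm⟩,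
        fun ⟨e⟩ ⟨f⟩ => ⟨f.comp e⟩⟩ }
  refine ⟨Quotient st, fun t => CD t.out.1, fun t => instCD _, ?_, ?_, ?_, ?_, ?_, ?_⟩
  · refine Cardinal.mk_quotient_le.trans ((Cardinal.mk_subtype_le _).trans ?_)
    rw [← hΛ]
    exact card_code L Λ (by rw [hΛ]; exact hρ) (by rw [hΛ]; exact hL)
  · intro t
    rw [← hΛ]
    exact Cardinal.mk_set_le _
  · intro t; exact t.out.2.1
  · intro t; exact t.out.2.2
  · intro s t h
    have h1 : Quotient.mk st s.out = Quotient.mk st t.out := Quotient.sound h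
    rwa [Quotient.out_eq, Quotient.out_eq] at h1
  · intro C _ hC hC0 hCc
    obtain ⟨p, ⟨e⟩⟩ := exists_code L Λ C (by rw [hΛ]; exact hC)
    have hp : Nonempty (CD p) ∧ Connected L (CD p) :=
      ⟨hC0.map e.symm, connected_of_iso e.symm hCc⟩
    refine ⟨Quotient.mk st ⟨p, hp⟩, ?_⟩
    obtain ⟨f⟩ : Nonempty (CD (Quotient.mk st ⟨p, hp⟩).out.1 ≃[L] CD p) :=
      Quotient.exact (Quotient.out_eq (Quotient.mk st ⟨p, hp⟩))
    exact ⟨e.comp f⟩

lemma decompose {L : FirstOrder.Language.{u, u}} [L.IsRelational] [IsEmpty (L.Relations 0)]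
    {T : Type u} (D : T → Type u) [∀ t, L.Structure (D t)] {ρ : Cardinal.{u}}
    (hcov : ∀ (C : Type u) [L.Structure C], #C ≤ ρ → Nonempty C → Connected L C →
        ∃ t, Nonempty (D t ≃[L] C))
    (M : Type u) [L.Structure M] (hM : SmallComponents L ρ M) :
    ∃ (X : Type u) (c : X → T), Nonempty (MM D c ≃[L] M) := by
  classical
  obtain ⟨r, hr1, hr2⟩ := hM
  have hle : ∀ a b : M, conn L M a b → r a b := by
    intro a b h
    have h' : Relation.EqvGen (Adj L M) a b := h
    clear h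
    induction h' with
    | rel a b h =>
      obtain ⟨n, R, v, i, j, h1, rfl, rfl⟩ := h
      exact hr2 n R v h1 i j
    | refl a => exact r.refl' a
    | symm a b _ ih => exact r.symm' ih
    | trans a b c _ _ ih1 ih2 => exact r.trans' ih1 ih2
  have hx : ∀ x : Quotient (conn L M), ∃ t, Nonempty (D t ≃[L] comp L M x) := by
    intro x
    have hne : Nonempty (comp L M x) := ⟨⟨x.out, mem_comp.2 (Quotient.out_eq x)⟩⟩
    refine hcov _ ?_ hne (comp_connected x)
    refine le_trans ?_ (hr1 x.out)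
    refine Cardinal.mk_le_of_injective (f := fun a : comp L M x =>
      (⟨a.1, hle _ _ (Quotient.exact ((Quotient.out_eq x).trans (mem_comp.1 a.2).symm))⟩ :
        {b // r x.out b})) ?_
    intro a b h
    apply Subtype.ext
    exact congrArg (fun z : {b // r x.out b} => z.1) h
  choose c hc using hx
  have e : ∀ x, D (c x) ≃[L] comp L M x := fun x => (hc x).some
  refine ⟨Quotient (conn L M), c, ⟨mkIso (Equiv.ofBijective
    (fun p : MM D c => ((e p.1 p.2).1 : M)) ⟨?_, ?_⟩) ?_⟩⟩
  · rintro ⟨x, a⟩ ⟨y, b⟩ h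
    have h0 : ((e x a).1 : M) = (e y b).1 := h
    have hxy : x = y := by
      rw [← mem_comp.1 (e x a).2, ← mem_comp.1 (e y b).2, h0]
    subst hxy
    have h1 : a = b := (e x).injective (Subtype.ext h0)
    rw [h1]
  · intro m
    refine ⟨⟨Quotient.mk (conn L M) m, (e _).symm ⟨m, mem_comp.2 rfl⟩⟩, ?_⟩
    show ((e _ ((e _).symm ⟨m, mem_comp.2 rfl⟩)).1 : M) = m
    rw [Language.Equiv.apply_symm_apply]
  · intro n R v
    rw [relMap_MM]
    show Structure.RelMap R (fun i => ((e (v i).1 (v i).2).1 : M)) ↔ _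
    constructor
    · intro h
      rcases Nat.eq_zero_or_pos n with hn | hn
      · subst hn; exact isEmptyElim R
      · have h1 : ∀ i, (v i).1 = (v ⟨0, hn⟩).1 := by
          intro i
          rw [← mem_comp.1 (e (v i).1 (v i).2).2, ← mem_comp.1 (e (v ⟨0, hn⟩).1 (v ⟨0, hn⟩).2).2]
          exact Quotient.sound (conn_of_related R _ h i ⟨0, hn⟩)
        have h2 : ∀ i, ∃ w : D (c (v ⟨0, hn⟩).1), v i = ⟨(v ⟨0, hn⟩).1, w⟩ := by
          intro i
          exact exists_pnt _ _ (h1 i)
        choose w hw using h2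
        refine ⟨(v ⟨0, hn⟩).1, w, hw, ?_⟩
        rw [← relMap_iso (e (v ⟨0, hn⟩).1) n R w]
        have h4 : ∀ i, ((e (v i).1 (v i).2).1 : M) = (e (v ⟨0, hn⟩).1 (w i)).1 := by
          intro i
          have h5 := congrArg (fun p : MM D c => ((e p.1 p.2).1 : M)) (hw i)
          exact h5
        simp only [h4] at h
        exact h
    · rintro ⟨x, w, h1, h2⟩
      have h4 : ∀ i, ((e (v i).1 (v i).2).1 : M) = (e x (w i)).1 := by
        intro i
        have h5 := congrArg (fun p : MM D c => ((e p.1 p.2).1 : M)) (h1 i)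
        exact h5
      simp only [h4]
      exact (relMap_iso (e x) n R w).2 h2

lemma conn_MM_fst {L : FirstOrder.Language.{u, u}} [L.IsRelational] {T X : Type u}
    {D : T → Type u} [∀ t, L.Structure (D t)] {c : X → T} {p q : MM D c}
    (h : conn L (MM D c) p q) : p.1 = q.1 := by
  have h' : Relation.EqvGen (Adj L (MM D c)) p q := h
  clear h
  induction h' with
  | rel a b h =>
    obtain ⟨n, R, v, i, j, ⟨x, w, h1, h2⟩, rfl, rfl⟩ := h
    rw [h1 i, h1 j]
  | refl a => rfl
  | symm a b _ ih => exact ih.symm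
  | trans a b c _ _ ih1 ih2 => exact ih1.trans ih2

lemma conn_MM {L : FirstOrder.Language.{u, u}} [L.IsRelational] {T X : Type u}
    {D : T → Type u} [∀ t, L.Structure (D t)] (hD : ∀ t, Connected L (D t)) {c : X → T} (x : X)
    (a b : D (c x)) : conn L (MM D c) (pnt x a) (pnt x b) := by
  have h1 : ∀ (n : ℕ) (r : L.Relations n) (v : Fin n → D (c x)), Structure.RelMap r v →
      Structure.RelMap r (fun i => (pnt x (v i) : MM D c)) := by
    intro n R v h
    exact (relMap_MM D c R _).2 ⟨x, v, fun i => rfl, h⟩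
  exact conn_map (fun a : D (c x) => (pnt x a : MM D c)) h1 a b (hD _ a b)

lemma relMap_pnt {L : FirstOrder.Language.{u, u}} [L.IsRelational] {T X : Type u}
    {D : T → Type u} [∀ t, L.Structure (D t)] {c : X → T} (x : X) {n : ℕ} (hn : 0 < n)
    (R : L.Relations n) (v : Fin n → D (c x)) :
    Structure.RelMap R (fun i => (pnt x (v i) : MM D c)) ↔ Structure.RelMap R v := by
  rw [relMap_MM]
  constructor
  · rintro ⟨y, w, h3, h4⟩
    have h5 : x = y := (Sigma.mk.inj (h3 ⟨0, hn⟩)).1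
    subst h5
    have h6 : v = w := by
      funext i
      exact pnt_inj (h3 i)
    rw [h6]; exact h4
  · intro h3; exact ⟨x, _, fun i => rfl, h3⟩

lemma invariance {L : FirstOrder.Language.{u, u}} [L.IsRelational] [IsEmpty (L.Relations 0)]
    {T X Y : Type u}
    (D : T → Type u) [∀ t, L.Structure (D t)] (hD : ∀ t, Connected L (D t))
    (hD0 : ∀ t, Nonempty (D t)) (hD1 : ∀ s t, Nonempty (D s ≃[L] D t) → s = t) (c : X → T)
    (d : Y → T) (f : MM D c ≃[L] MM D d) : ∃ e : X ≃ Y, ∀ x, d (e x) = c x := by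
  classical
  have pt : ∀ t, D t := fun t => (hD0 t).some
  have hf : ∀ x (a b : D (c x)), (f (pnt x a)).1 = (f (pnt x b)).1 :=
    fun x a b => conn_MM_fst (conn_map f (fun n r v => (relMap_iso f n r v).2) _ _
      (conn_MM hD x a b))
  have hf' : ∀ y (a b : D (d y)), (f.symm (pnt y a)).1 = (f.symm (pnt y b)).1 :=
    fun y a b => conn_MM_fst (conn_map f.symm (fun n r v => (relMap_iso f.symm n r v).2) _ _
      (conn_MM hD y a b))
  let g : X → Y := fun x => (f (pnt x (pt _))).1
  let h : Y → X := fun y => (f.symm (pnt y (pt _))).1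
  have hg : ∀ p : MM D c, (f p).1 = g p.1 := fun p => hf p.1 p.2 _
  have hh : ∀ q : MM D d, (f.symm q).1 = h q.1 := fun q => hf' q.1 q.2 _
  have hhg : ∀ x, h (g x) = x := by
    intro x
    have h1 := hh (f (pnt x (pt _)))
    have h2 : f.symm (f (pnt x (pt _))) = pnt x (pt _) := f.symm_apply_apply _
    rw [h2] at h1
    exact h1.symm
  have hgh : ∀ y, g (h y) = y := by
    intro y
    have h1 := hg (f.symm (pnt y (pt _)))
    have h2 : f (f.symm (pnt y (pt _))) = pnt y (pt _) := f.apply_symm_apply _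
    rw [h2] at h1
    exact h1.symm
  refine ⟨⟨g, h, hhg, hgh⟩, fun x => ?_⟩
  show d (g x) = c x
  have h1 : ∀ a : D (c x), ∃ b : D (d (g x)), f (pnt x a) = pnt (g x) b :=
    fun a => exists_pnt _ _ (hg _)
  choose φ hφ using h1
  apply hD1
  refine ⟨(mkIso (Equiv.ofBijective φ ⟨?_, ?_⟩) ?_).symm⟩
  · intro a b hab
    have h2 : f (pnt x a : MM D c) = f (pnt x b) := by rw [hφ, hφ, hab]
    exact pnt_inj (f.injective h2)
  · intro b
    obtain ⟨a, ha⟩ := exists_pnt (f.symm (pnt (g x) b)) x ((hh _).trans (hhg x))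
    refine ⟨a, ?_⟩
    have h2 : f (pnt x a) = pnt (g x) b := by
      rw [← ha]
      exact f.apply_symm_apply _
    rw [hφ] at h2
    exact pnt_inj h2
  · intro n R v
    show Structure.RelMap R (fun i => φ (v i)) ↔ Structure.RelMap R v
    rcases Nat.eq_zero_or_pos n with hn | hn
    · subst hn; exact isEmptyElim R
    rw [← relMap_pnt (c := d) (g x) hn R (fun i => φ (v i)), ← relMap_pnt (c := c) x hn R v,
      ← relMap_iso f n R (fun i => (pnt x (v i) : MM D c))]
    simp only [hφ]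

end Vale.Agent.P307
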