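import Vale.Agent.P307.Blow

/-!
The categoricity transfer for classes of coloured sets.
-/

namespace Vale.Agent.P307

open Cardinal Set

universe u

lemma realize {T : Type u} (m : T → Cardinal.{u}) :
    ∃ (Y : Type u) (d : Y → T), ∀ t, #(fib d t) = m t := by
  refine ⟨Σ t, (m t).out, Sigma.fst, fun t => ?_⟩
  have h : #(fib (Sigma.fst : (Σ t, (m t).out) → T) t) = #((m t).out) :=
    Cardinal.mk_congr (Equiv.sigmaSubtype t)
  rw [h, Cardinal.mk_out]

lemma card_compl_le {T X : Type u} {χ : Cardinal.{u}} (hχ : ℵ₀ ≤ χ) (hT : #T ≤ χ) (c : X → T)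
    (t0 : T) (h : ∀ t ≠ t0, #(fib c t) ≤ χ) : #((fib c t0)ᶜ : Set X) ≤ χ := by
  apply card_le_of_fibers hχ hT c
  intro t
  by_cases ht : t = t0
  · subst ht
    rw [Set.compl_inter_self]
    simp
  · exact (Cardinal.mk_le_mk_of_subset Set.inter_subset_right).trans (h t ht)

lemma card_eq_of_large {T X : Type u} {χ κ : Cardinal.{u}} (hχ : ℵ₀ ≤ χ) (hT : #T ≤ χ)
    (c : X → T) (t0 : T) (h : ∀ t ≠ t0, #(fib c t) ≤ χ) (hκ : χ ≤ κ) (h0 : #(fib c t0) = κ) :
    #X = κ := by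
  apply le_antisymm
  · have h1 : (Set.univ : Set X) = fib c t0 ∪ (fib c t0)ᶜ := (Set.union_compl_self _).symm
    calc #X = #(Set.univ : Set X) := Cardinal.mk_univ.symm
      _ ≤ #(fib c t0) + #((fib c t0)ᶜ : Set X) := by rw [h1]; exact Cardinal.mk_union_le _ _
      _ ≤ κ + κ := add_le_add h0.le ((card_compl_le hχ hT c t0 h).trans hκ)
      _ = κ := Cardinal.add_eq_self (hχ.trans hκ)
  · rw [← h0]; exact Cardinal.mk_set_le _

lemma large_of_card {T X : Type u} {χ κ : Cardinal.{u}} (hχ : ℵ₀ ≤ χ) (hT : #T ≤ χ)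
    (c : X → T) (t0 : T) (h : ∀ t ≠ t0, #(fib c t) ≤ χ) (hκ : χ < κ) (hX : #X = κ) :
    #(fib c t0) = κ := by
  apply le_antisymm
  · rw [← hX]; exact Cardinal.mk_set_le _
  · by_contra hlt
    rw [not_le] at hlt
    have h1 : (Set.univ : Set X) = fib c t0 ∪ (fib c t0)ᶜ := (Set.union_compl_self _).symm
    have h2 : #X ≤ #(fib c t0) + #((fib c t0)ᶜ : Set X) := by
      rw [← Cardinal.mk_univ (α := X), h1]; exact Cardinal.mk_union_le _ _
    have h3 : #(fib c t0) + #((fib c t0)ᶜ : Set X) < κ :=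
      Cardinal.add_lt_of_lt (hχ.trans hκ.le) hlt
        (lt_of_le_of_lt (card_compl_le hχ hT c t0 h) hκ)
    rw [hX] at h2
    exact absurd h2 (not_le.2 h3)

lemma exists_large {T X : Type u} {χ : Cardinal.{u}} (hχ : ℵ₀ ≤ χ) (hT : #T ≤ χ) (c : X → T)
    (hX : χ < #X) : ∃ t, χ < #(fib c t) := by
  by_contra hcon
  push Not at hcon
  have h1 := card_le_of_fibers hχ hT c Set.univ (by
    intro t; rw [Set.univ_inter]; exact hcon t)
  rw [Cardinal.mk_univ] at h1
  exact absurd h1 (not_le.2 hX)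

lemma reprofile {T : Type u} {χ : Cardinal.{u}} (K : ColAEC T χ) (hχ : ℵ₀ ≤ χ) (hT : #T ≤ χ)
    {κ : Cardinal.{u}} (hκ : χ < κ) (X : Type u) (c : X → T) (hX : K.Cl X c) (t1 : T)
    (ht1 : χ < #(fib c t1)) (m : T → Cardinal.{u}) (hm1 : m t1 = κ)
    (hm2 : ∀ t ≠ t1, #(fib c t) ≤ χ → m t = #(fib c t))
    (hm3 : ∀ t ≠ t1, χ < #(fib c t) → χ ≤ m t ∧ m t ≤ Order.succ χ) :
    ∃ (Y : Type u) (d : Y → T), K.Cl Y d ∧ #Y = κ ∧ ∀ t, #(fib d t) = m t := by
  classical
  have h1 : ∀ t, ∃ B : Set X, B ⊆ fib c t ∧ (#B = if t = t1 then Order.succ χ else m t) ∧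
      (#(fib c t) ≤ χ → B = fib c t) := by
    intro t
    rcases le_or_gt (#(fib c t)) χ with h3 | h3
    · have ht : t ≠ t1 := by
        rintro rfl
        exact absurd h3 (not_le.2 ht1)
      refine ⟨fib c t, subset_rfl, ?_, fun _ => rfl⟩
      rw [if_neg ht, hm2 t ht h3]
    · have h2 : (if t = t1 then Order.succ χ else m t) ≤ #(fib c t) := by
        split_ifs with h
        · subst h; exact Order.succ_le_of_lt ht1
        · exact (hm3 t h h3).2.trans (Order.succ_le_of_lt h3)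
      obtain ⟨B, hB1, hB2⟩ := Cardinal.le_mk_iff_exists_subset.1 h2
      exact ⟨B, hB1, hB2, fun h => absurd h (not_le.2 h3)⟩
  choose B hB1 hB2 hB3 using h1
  set A : Set X := ⋃ t, B t with hA
  have hAt : ∀ t, A ∩ fib c t = B t := by
    intro t
    ext x
    simp only [hA, Set.mem_inter_iff, Set.mem_iUnion]
    constructor
    · rintro ⟨⟨s, hs⟩, hx⟩
      have : s = t := by
        have h2 := hB1 s hs
        simp only [fib, Set.mem_ofPred_eq] at h2 hx
        rw [← h2, hx]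
      rw [← this]; exact hs
    · intro hx
      exact ⟨⟨t, hx⟩, hB1 t hx⟩
  have hgood : Good χ c A := by
    intro t
    refine ⟨fun h => ?_, fun h => ?_⟩
    · rw [← hB3 t h]; exact Set.subset_iUnion B t
    · rw [hAt, hB2]
      split_ifs with ht
      · exact Order.le_succ χ
      · exact (hm3 t ht h).1
  have hClA := K.cl_sub X c A (good_strong K hχ hT X c hX A hgood)
  have hfibA : ∀ t, #(fib (fun a : A => c a) t) = if t = t1 then Order.succ χ else m t := by
    intro t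
    rw [card_fib_sub, hAt, hB2]
  obtain ⟨Y, d, hd⟩ := realize m
  have hblow := blow_up K hχ hT A (fun a : A => c a) hClA t1
    (by rw [hfibA, if_pos rfl]; exact Order.lt_succ χ) κ hκ.le Y d
    (by
      intro t ht
      rw [hd, hfibA, if_neg ht])
    (by rw [hd, hm1])
  refine ⟨Y, d, hblow.1, ?_, hd⟩
  apply card_eq_of_large (χ := Order.succ χ) (hχ.trans (Order.le_succ χ))
    (hT.trans (Order.le_succ χ)) d t1 _ (Order.succ_le_of_lt hκ)
  · rw [hd, hm1]
  · intro t ht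
    rw [hd]
    rcases le_or_gt (#(fib c t)) χ with h3 | h3
    · rw [hm2 t ht h3]; exact h3.trans (Order.le_succ χ)
    · exact (hm3 t ht h3).2

/-- all models of size `κ` have the same profile. -/
def Uniq {T : Type u} {χ : Cardinal.{u}} (K : ColAEC T χ) (κ : Cardinal.{u}) : Prop :=
  ∀ (X : Type u) (c : X → T) (Y : Type u) (d : Y → T), K.Cl X c → K.Cl Y d → #X = κ → #Y = κ →
    ∀ t, #(fib c t) = #(fib d t)

lemma unique_large {T : Type u} {χ : Cardinal.{u}} (K : ColAEC T χ) (hχ : ℵ₀ ≤ χ) (hT : #T ≤ χ)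
    {κ : Cardinal.{u}} (hκ : χ < κ) (hu : Uniq K κ) (X : Type u) (c : X → T) (hX : K.Cl X c)
    (t1 : T) (ht1 : χ < #(fib c t1)) (t2 : T) (h12 : t2 ≠ t1) : #(fib c t2) ≤ χ := by
  classical
  by_contra hcon
  rw [not_le] at hcon
  obtain ⟨Y1, d1, hY1, hc1, hp1⟩ := reprofile K hχ hT hκ X c hX t1 ht1
    (fun t => if t = t1 then κ else if #(fib c t) ≤ χ then #(fib c t) else Order.succ χ)
    (by simp)
    (by intro t ht h; simp only [if_neg ht, if_pos h])
    (by
      intro t ht h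
      simp only [if_neg ht, if_neg (not_le.2 h)]
      exact ⟨Order.le_succ χ, le_rfl⟩)
  obtain ⟨Y2, d2, hY2, hc2, hp2⟩ := reprofile K hχ hT hκ X c hX t1 ht1
    (fun t => if t = t1 then κ else if #(fib c t) ≤ χ then #(fib c t) else χ)
    (by simp)
    (by intro t ht h; simp only [if_neg ht, if_pos h])
    (by
      intro t ht h
      simp only [if_neg ht, if_neg (not_le.2 h)]
      exact ⟨le_rfl, Order.le_succ χ⟩)
  have h := hu Y1 d1 Y2 d2 hY1 hY2 hc1 hc2 t2
  rw [hp1, hp2] at h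
  simp only [if_neg h12, if_neg (not_le.2 hcon)] at h
  exact absurd h (Order.lt_succ χ).ne'

lemma profile_of {T : Type u} {χ : Cardinal.{u}} (K : ColAEC T χ) (hχ : ℵ₀ ≤ χ) (hT : #T ≤ χ)
    {κ : Cardinal.{u}} (hκ : χ < κ) (hu : Uniq K κ) (X0 : Type u) (c0 : X0 → T)
    (hX0 : K.Cl X0 c0) (hc0 : #X0 = κ) (t0 : T) (ht0 : χ < #(fib c0 t0))
    (X : Type u) (c : X → T) (hX : K.Cl X c) (hc : χ < #X) :
    χ < #(fib c t0) ∧ ∀ t ≠ t0, #(fib c t) = #(fib c0 t) := by
  classical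
  obtain ⟨t1, ht1⟩ := exists_large hχ hT c hc
  have hle := unique_large K hχ hT hκ hu X c hX t1 ht1
  obtain ⟨Y, d, hY, hcY, hp⟩ := reprofile K hχ hT hκ X c hX t1 ht1
    (fun t => if t = t1 then κ else #(fib c t))
    (by simp)
    (by intro t ht _; simp only [if_neg ht])
    (by
      intro t ht h
      exact absurd (hle t ht) (not_le.2 h))
  have h := hu X0 c0 Y d hX0 hY hc0 hcY
  have h10 : t1 = t0 := by
    by_contra hne
    have h1 := unique_large K hχ hT hκ hu X0 c0 hX0 t0 ht0 t1 hne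
    rw [h t1, hp] at h1
    simp only [if_true] at h1
    exact absurd h1 (not_le.2 hκ)
  subst h10
  refine ⟨ht1, fun t ht => ?_⟩
  rw [h t, hp]
  simp only [if_neg ht]

theorem transfer {T : Type u} {χ : Cardinal.{u}} (K : ColAEC T χ) (hχ : ℵ₀ ≤ χ) (hT : #T ≤ χ)
    {κ κ' : Cardinal.{u}} (hκ : χ < κ) (hκ' : χ < κ')
    (hex : ∃ (X : Type u) (c : X → T), K.Cl X c ∧ #X = κ) (hu : Uniq K κ) :
    (∃ (X : Type u) (c : X → T), K.Cl X c ∧ #X = κ') ∧ Uniq K κ' := by
  classical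
  obtain ⟨X0, c0, hX0, hc0⟩ := hex
  obtain ⟨t0, ht0⟩ := exists_large hχ hT c0 (by rw [hc0]; exact hκ)
  have hle := unique_large K hχ hT hκ hu X0 c0 hX0 t0 ht0
  constructor
  · obtain ⟨Y, d, hY, hcY, _⟩ := reprofile K hχ hT hκ' X0 c0 hX0 t0 ht0
      (fun t => if t = t0 then κ' else #(fib c0 t))
      (by simp)
      (by intro t ht _; simp only [if_neg ht])
      (by
        intro t ht h
        exact absurd (hle t ht) (not_le.2 h))
    exact ⟨Y, d, hY, hcY⟩
  · intro X c Y d hX hY hcX hcY t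
    have h1 := profile_of K hχ hT hκ hu X0 c0 hX0 hc0 t0 ht0 X c hX (by rw [hcX]; exact hκ')
    have h2 := profile_of K hχ hT hκ hu X0 c0 hX0 hc0 t0 ht0 Y d hY (by rw [hcY]; exact hκ')
    by_cases ht : t = t0
    · subst ht
      rw [large_of_card hχ hT c t (fun s hs => by rw [h1.2 s hs]; exact hle s hs) hκ' hcX,
        large_of_card hχ hT d t (fun s hs => by rw [h2.2 s hs]; exact hle s hs) hκ' hcY]
    · rw [h1.2 t ht, h2.2 t ht]

end Vale.Agent.P307
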