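import Mathlib
import Vale.Agent.P307.Defs
import Vale.Agent.P307.Transfer
import Vale.Agent.P307.Build
import Vale.Agent.P307.Decomp

/-!
The transfer theorem for abstract elementary classes with small components.
-/

namespace Vale.Agent.P307

open FirstOrder Cardinal Set FirstOrder.Language

universe u

lemma isLS_LS {L : FirstOrder.Language.{u, u}} (K : AEC L) : K.IsLS K.LS := by
  have h : {ℓ | K.IsLS ℓ}.Nonempty := K.exists_ls
  exact csInf_mem h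

lemma card_MM {T X : Type u} (D : T → Type u) {ρ : Cardinal.{u}} (hρ : ℵ₀ ≤ ρ)
    (hD : ∀ t, #(D t) ≤ ρ) (hD0 : ∀ t, Nonempty (D t)) (c : X → T) {κ : Cardinal.{u}}
    (hκ : ρ < κ) : #(MM D c) = κ ↔ #X = κ := by
  have h1 : #X ≤ #(MM D c) :=
    Cardinal.mk_le_of_surjective (f := fun p : MM D c => p.1)
      (fun x => ⟨⟨x, (hD0 _).some⟩, rfl⟩)
  have h2 : #(MM D c) ≤ #X * ρ := by
    have h3 : #(MM D c) = Cardinal.sum (fun x => #(D (c x))) := Cardinal.mk_sigma _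
    rw [h3]
    refine (Cardinal.sum_le_sum _ (fun _ => ρ) (fun a => hD _)).trans ?_
    rw [Cardinal.sum_const']
  have h3 : #(MM D c) ≤ max #X ρ := by
    refine h2.trans ?_
    refine (mul_le_mul' (le_max_left #X ρ) (le_max_right #X ρ)).trans ?_
    exact (Cardinal.mul_eq_self (hρ.trans (le_max_right _ _))).le
  constructor
  · intro h
    rw [h] at h1 h3
    rcases le_max_iff.1 h3 with h4 | h4
    · exact le_antisymm h1 h4
    · exact absurd h4 (not_le.2 hκ)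
  · intro h
    rw [h] at h1 h3
    rw [max_eq_left hκ.le] at h3
    exact le_antisymm h3 h1

theorem main2 (ρ : Cardinal.{u}) (hρ : ℵ₀ ≤ ρ) (L : FirstOrder.Language.{u, u})
    (hL : Relational L) (K : AEC L) (hLS : K.LS ≤ ρ)
    (κ κ' : Cardinal.{u}) (hκ : 2 ^ ρ < κ) (hκ' : 2 ^ ρ < κ')
    (hK : ∀ (M : Type u) [L.Structure M], K.Mem M → #M = κ → SmallComponents L ρ M)
    (hK' : ∀ (M : Type u) [L.Structure M], K.Mem M → #M = κ' → SmallComponents L ρ M)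
    (h : K.Categorical κ) : K.Categorical κ' := by
  classical
  have : L.IsRelational := hL.1
  have : IsEmpty (L.Relations 0) := hL.2
  have hls := isLS_LS K
  have hρχ : ρ ≤ 2 ^ ρ := (Cardinal.cantor ρ).le
  have hχ : ℵ₀ ≤ (2 : Cardinal.{u}) ^ ρ := hρ.trans hρχ
  obtain ⟨T, D, inst, hT, hD, hD0, hDc, hD1, hcov⟩ := exists_family L ρ hρ (hls.2.1.trans hLS)
  let C : ColAEC T (2 ^ ρ) := toCol K hls (hLS.trans hρχ) hχ D (fun t => (hD t).trans hρχ) hD0
  have hρκ : ρ < κ := lt_of_le_of_lt hρχ hκ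
  have hρκ' : ρ < κ' := lt_of_le_of_lt hρχ hκ'
  have hdec : ∀ (M : Type u) [L.Structure M], K.Mem M → SmallComponents L ρ M →
      ∃ (X : Type u) (c : X → T), C.Cl X c ∧ #(MM D c) = #M ∧ Nonempty (MM D c ≃[L] M) := by
    intro M _ hM hsm
    obtain ⟨X, c, ⟨e⟩⟩ := decompose D hcov M hsm
    exact ⟨X, c, K.mem_iso _ _ e.symm hM, Cardinal.mk_congr e.toEquiv, ⟨e⟩⟩
  have hex : ∃ (X : Type u) (c : X → T), C.Cl X c ∧ #X = κ := by
    obtain ⟨M, _, hM, hMκ⟩ := h.1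
    obtain ⟨X, c, h1, h2, _⟩ := hdec M hM (hK M hM hMκ)
    exact ⟨X, c, h1, (card_MM D hρ hD hD0 c hρκ).1 (h2.trans hMκ)⟩
  have hu : Uniq C κ := by
    intro X c Y d hX hY hcX hcY t
    obtain ⟨f⟩ := h.2 (MM D c) (MM D d) hX hY ((card_MM D hρ hD hD0 c hρκ).2 hcX)
      ((card_MM D hρ hD hD0 d hρκ).2 hcY)
    obtain ⟨e, he⟩ := invariance D hDc hD0 hD1 c d f
    refine Cardinal.mk_congr (e.subtypeEquiv ?_)
    intro x
    show c x = t ↔ d (e x) = t
    rw [he]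
  obtain ⟨h1, h2⟩ := transfer C hχ hT hκ hκ' hex hu
  constructor
  · obtain ⟨X, c, h3, h4⟩ := h1
    exact ⟨MM D c, inferInstance, h3, (card_MM D hρ hD hD0 c hρκ').2 h4⟩
  · intro M N _ _ hM hN hMκ hNκ
    obtain ⟨X, c, hX, hcX, ⟨f⟩⟩ := hdec M hM (hK' M hM hMκ)
    obtain ⟨Y, d, hY, hdY, ⟨g⟩⟩ := hdec N hN (hK' N hN hNκ)
    have h3 := h2 X c Y d hX hY ((card_MM D hρ hD hD0 c hρκ').1 (hcX.trans hMκ))
      ((card_MM D hρ hD hD0 d hρκ').1 (hdY.trans hNκ))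
    obtain ⟨e, he⟩ := exists_equiv c d h3
    have h4 : c = fun x => d (e x) := by
      funext x; exact (he x).symm
    subst h4
    exact ⟨(g.comp (reindex D e d)).comp f.symm⟩

theorem main (ρ : Cardinal.{u}) (hρ : ℵ₀ ≤ ρ) (L : FirstOrder.Language.{u, u})
    (hL : Relational L) (K : AEC L) (hLS : K.LS ≤ ρ)
    (hK : ∀ (M : Type u) [L.Structure M], K.Mem M → SmallComponents L ρ M)
    (κ κ' : Cardinal.{u}) (hκ : 2 ^ ρ < κ) (hκ' : 2 ^ ρ < κ') (h : K.Categorical κ) :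
    K.Categorical κ' :=
  main2 ρ hρ L hL K hLS κ κ' hκ hκ' (fun M _ hM _ => hK M hM) (fun M _ hM _ => hK M hM) h

end Vale.Agent.P307
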