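import Mathlib
import Vale.Agent.P307.DefsC
import Vale.Agent.P307.Final

/-!
Abstract elementary classes of relational structures closed under disjoint unions of copies.
-/

namespace Vale.Agent.P307

open FirstOrder Cardinal Set FirstOrder.Language

universe u

lemma small_copies {L : FirstOrder.Language.{u, u}} [L.IsRelational] (I M : Type u)
    [L.Structure M] (ρ : Cardinal.{u}) (hM : #M ≤ ρ) : SmallComponents L ρ (Copies I M) := by
  refine ⟨Setoid.ker (fun p : Copies I M => p.1), ?_, ?_⟩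
  · intro a
    refine le_trans ?_ hM
    refine Cardinal.mk_le_of_injective
      (f := fun b : {b // (Setoid.ker (fun p : Copies I M => p.1)) a b} => b.1.2) ?_
    intro b c h
    apply Subtype.ext
    have hb : a.1 = b.1.1 := b.2
    have hc : a.1 = c.1.1 := c.2
    exact Prod.ext (hb.symm.trans hc) h
  · rintro n R x ⟨i, h1, _⟩ k l
    show (x k).1 = (x l).1
    rw [h1, h1]

lemma small_of_inj {L : FirstOrder.Language.{u, u}} {M N : Type u} [L.Structure M]
    [L.Structure N] (j : M → N) (hj : Function.Injective j)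
    (hr : ∀ (n : ℕ) (R : L.Relations n) (v : Fin n → M), Structure.RelMap R v →
      Structure.RelMap R (fun i => j (v i))) {ρ : Cardinal.{u}} (h : SmallComponents L ρ N) :
    SmallComponents L ρ M := by
  obtain ⟨r, h1, h2⟩ := h
  refine ⟨Setoid.comap j r, ?_, ?_⟩
  · intro a
    refine le_trans ?_ (h1 (j a))
    refine Cardinal.mk_le_of_injective
      (f := fun b : {b // (Setoid.comap j r) a b} => (⟨j b.1, b.2⟩ : {b // r (j a) b})) ?_
    intro b c h
    apply Subtype.ext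
    exact hj (congrArg Subtype.val h)
  · intro n R x hx k l
    exact h2 n R _ (hr n R x hx) k l

lemma small_iso {L : FirstOrder.Language.{u, u}} {M N : Type u} [L.Structure M]
    [L.Structure N] (e : M ≃[L] N) {ρ : Cardinal.{u}} (h : SmallComponents L ρ N) :
    SmallComponents L ρ M :=
  small_of_inj e e.injective (fun n R v => (relMap_iso e n R v).2) h

lemma conn_local {L : FirstOrder.Language.{u, u}} {M : Type u} [L.Structure M] (a b : M)
    (h : conn L M a b) : ∃ F : Set M, F.Finite ∧ a ∈ F ∧ b ∈ F ∧ ∀ W : L.Substructure M,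
      F ⊆ W → ∀ (ha : a ∈ W) (hb : b ∈ W), conn L W ⟨a, ha⟩ ⟨b, hb⟩ := by
  have h' : Relation.EqvGen (Adj L M) a b := h
  clear h
  induction h' with
  | rel a b h =>
    obtain ⟨n, R, v, i, j, h1, rfl, rfl⟩ := h
    refine ⟨Set.range v, Set.finite_range v, ⟨i, rfl⟩, ⟨j, rfl⟩, ?_⟩
    intro W hW ha hb
    exact conn_of_related (M := W) R (fun k => ⟨v k, hW ⟨k, rfl⟩⟩) h1 i j
  | refl a =>
    exact ⟨{a}, Set.finite_singleton a, rfl, rfl, fun W _ ha hb => (conn L W).refl' _⟩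
  | symm a b _ ih =>
    obtain ⟨F, h1, h2, h3, h4⟩ := ih
    exact ⟨F, h1, h3, h2, fun W hW ha hb => (conn L W).symm' (h4 W hW hb ha)⟩
  | trans a b c _ _ ih1 ih2 =>
    obtain ⟨F, h1, h2, h3, h4⟩ := ih1
    obtain ⟨G, g1, g2, g3, g4⟩ := ih2
    refine ⟨F ∪ G, h1.union g1, Or.inl h2, Or.inr g3, ?_⟩
    intro W hW ha hc
    have hb : b ∈ W := hW (Or.inl h3)
    exact (conn L W).trans' (h4 W (fun x hx => hW (Or.inl hx)) ha hb)
      (g4 W (fun x hx => hW (Or.inr hx)) hb hc)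

lemma conn_le {L : FirstOrder.Language.{u, u}} {M : Type u} [L.Structure M] (r : Setoid M)
    (hr : ∀ (n : ℕ) (R : L.Relations n) (x : Fin n → M), Structure.RelMap R x →
      ∀ i j, r (x i) (x j)) (a b : M) (h : conn L M a b) : r a b := by
  have h' : Relation.EqvGen (Adj L M) a b := h
  clear h
  induction h' with
  | rel a b h =>
    obtain ⟨n, R, v, i, j, h1, rfl, rfl⟩ := h
    exact hr n R v h1 i j
  | refl a => exact r.refl' a
  | symm a b _ ih => exact r.symm' ih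
  | trans a b c _ _ ih1 ih2 => exact r.trans' ih1 ih2

/-- if the members of size `κ` have small components then so do the larger members. -/
lemma small_up {L : FirstOrder.Language.{u, u}} (K : AEC L) (ρ κ : Cardinal.{u}) (hρ : ℵ₀ ≤ ρ)
    (hLS : K.LS ≤ ρ) (hκ : ρ < κ)
    (hK : ∀ (M : Type u) [L.Structure M], K.Mem M → #M = κ → SmallComponents L ρ M)
    (M : Type u) [L.Structure M] (hM : K.Mem M) (hMκ : κ ≤ #M) : SmallComponents L ρ M := by
  classical
  refine ⟨conn L M, ?_, fun n R x hx i j => conn_of_related R x hx i j⟩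
  intro a
  by_contra hcon
  rw [not_le] at hcon
  have hcon' : Order.succ ρ ≤ #({b | conn L M a b} : Set M) := Order.succ_le_of_lt hcon
  obtain ⟨B, hB1, hB2⟩ := Cardinal.le_mk_iff_exists_subset.1 hcon'
  have hF : ∀ b : B, ∃ F : Set M, F.Finite ∧ a ∈ F ∧ (b : M) ∈ F ∧ ∀ W : L.Substructure M,
      F ⊆ W → ∀ (ha : a ∈ W) (hb : (b : M) ∈ W), conn L W ⟨a, ha⟩ ⟨b, hb⟩ :=
    fun b => conn_local a b (hB1 b.2)
  choose F hF1 hF2 hF3 hF4 using hF
  obtain ⟨C, hC⟩ := Cardinal.le_mk_iff_exists_set.1 hMκ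
  have hsucc : Order.succ ρ ≤ κ := Order.succ_le_of_lt hκ
  have hκ0 : ℵ₀ ≤ κ := hρ.trans hκ.le
  have hA : #((⋃ b : B, F b) ∪ C : Set M) ≤ κ := by
    refine (Cardinal.mk_union_le _ _).trans ?_
    refine (add_le_add ?_ hC.le).trans (Cardinal.add_eq_self hκ0).le
    refine Cardinal.mk_iUnion_le_sum_mk.trans ?_
    refine (Cardinal.sum_le_sum _ (fun _ => κ) ?_).trans ?_
    · intro b
      exact (Cardinal.lt_aleph0_iff_set_finite.2 (hF1 b)).le.trans hκ0
    · rw [Cardinal.sum_const', hB2]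
      exact (mul_le_mul' hsucc le_rfl).trans (Cardinal.mul_eq_self hκ0).le
  obtain ⟨S, hS1, hS2, hS3⟩ := (isLS_LS K).2.2 M hM ((⋃ b : B, F b) ∪ C)
  have hSκ : #S = κ := by
    apply le_antisymm
    · exact hS3.trans ((add_le_add hA (hLS.trans hκ.le)).trans (Cardinal.add_eq_self hκ0).le)
    · rw [← hC]
      exact Cardinal.mk_le_mk_of_subset (fun x hx => hS1 (Or.inr hx))
  obtain ⟨r, hr1, hr2⟩ := hK S (K.mem_of_le _ _ hS2).1 hSκ
  have hFS : ∀ b : B, F b ⊆ (S : Set M) := fun b x hx => hS1 (Or.inl (Set.mem_iUnion.2 ⟨b, hx⟩))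
  have hBne : Nonempty B := by
    rw [← Cardinal.mk_ne_zero_iff, hB2]
    exact (lt_of_le_of_lt bot_le (Order.lt_succ ρ)).ne'
  obtain ⟨b0⟩ := hBne
  have ha : a ∈ S := hFS b0 (hF2 b0)
  have h1 : #B ≤ #{b // r ⟨a, ha⟩ b} := by
    refine Cardinal.mk_le_of_injective (f := fun b : B => (⟨⟨b, hFS b (hF3 b)⟩,
      conn_le r hr2 _ _ (hF4 b S (hFS b) ha (hFS b (hF3 b)))⟩ : {b // r ⟨a, ha⟩ b})) ?_
    intro b c h
    apply Subtype.ext
    exact congrArg (fun z : {b // r ⟨a, ha⟩ b} => (z.1 : M)) h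
  rw [hB2] at h1
  exact absurd (h1.trans (hr1 ⟨a, ha⟩)) (not_le.2 (Order.lt_succ ρ))

theorem closedCopies {L : FirstOrder.Language.{u, u}} [L.IsRelational] [IsEmpty (L.Relations 0)]
    (K : AEC L) (ρ : Cardinal.{u}) (hLS : K.LS ≤ ρ) (hcop : K.ClosedCopies)
    (κ κ' : Cardinal.{u}) (hκ : 2 ^ ρ < κ) (hκ' : 2 ^ ρ < κ') (h : K.Categorical κ) :
    K.Categorical κ' := by
  classical
  have hls := isLS_LS K
  have hρ : ℵ₀ ≤ ρ := hls.1.trans hLS
  have hρχ : ρ ≤ 2 ^ ρ := (Cardinal.cantor ρ).le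
  have hρκ : ρ < κ := lt_of_le_of_lt hρχ hκ
  have hκ0 : ℵ₀ ≤ κ := hρ.trans hρκ.le
  have hinf : Infinite κ.out := Cardinal.infinite_iff.2 (by rw [Cardinal.mk_out]; exact hκ0)
  have hcard : ∀ (M : Type u), Nonempty M → #M ≤ κ → #(Copies κ.out M) = κ := by
    intro M hM hMκ
    have h1 : #(Copies κ.out M) = #κ.out * #M := by
      show #(κ.out × M) = _
      rw [Cardinal.mk_prod, Cardinal.lift_id, Cardinal.lift_id]
    rw [h1, Cardinal.mk_out]
    exact Cardinal.mul_eq_left hκ0 hMκ (Cardinal.mk_ne_zero_iff.2 hM)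
  obtain ⟨M0, _, hM0, hM0κ⟩ := h.1
  have hM0ne : Nonempty M0 := by
    rw [← Cardinal.mk_ne_zero_iff, hM0κ]
    exact (lt_of_lt_of_le Cardinal.aleph0_pos hκ0).ne'
  obtain ⟨a⟩ := hM0ne
  obtain ⟨N, hN1, hN2, hN3⟩ := hls.2.2 M0 hM0 {a}
  have hNmem : K.Mem N := (K.mem_of_le _ _ hN2).1
  have hNρ : #N ≤ ρ := by
    refine hN3.trans ?_
    rw [Cardinal.mk_singleton]
    exact (add_le_add (Cardinal.one_le_aleph0.trans hρ) hLS).trans (Cardinal.add_eq_self hρ).le
  have hP : K.Mem (Copies κ.out N) := hcop N hNmem κ.out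
  have hPc : #(Copies κ.out N) = κ := hcard N ⟨⟨a, hN1 rfl⟩⟩ (hNρ.trans hρκ.le)
  have hPs : SmallComponents L ρ (Copies κ.out N) := small_copies _ _ ρ hNρ
  have hK : ∀ (M : Type u) [L.Structure M], K.Mem M → #M = κ → SmallComponents L ρ M := by
    intro M _ hM hMκ
    obtain ⟨e⟩ := h.2 M (Copies κ.out N) hM hP hMκ hPc
    exact small_iso e hPs
  refine main2 ρ hρ L ⟨fun n => inferInstance, inferInstance⟩ K hLS κ κ' hκ hκ' hK ?_ h
  intro M _ hM hMκ'
  rcases le_or_gt κ κ' with hle | hlt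
  · exact small_up K ρ κ hρ hLS hρκ hK M hM (by rw [hMκ']; exact hle)
  · have hMne : Nonempty M := by
      rw [← Cardinal.mk_ne_zero_iff, hMκ']
      exact (lt_of_le_of_lt bot_le hκ').ne'
    have hQ : K.Mem (Copies κ.out M) := hcop M hM κ.out
    have hQs := hK _ hQ (hcard M hMne (by rw [hMκ']; exact hlt.le))
    obtain ⟨x0⟩ : Nonempty κ.out := inferInstance
    refine small_of_inj (N := Copies κ.out M) (fun m : M => (x0, m)) ?_ ?_ hQs
    · intro m m' hm
      exact congrArg Prod.snd hm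
    · intro n R v hv
      exact ⟨x0, fun k => rfl, hv⟩

end Vale.Agent.P307
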