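import Mathlib
import Vale.Agent.P307.Copies

/-!
Abstract elementary classes of relational structures closed under disjoint unions of copies:
categoricity transfer above the Löwenheim-Skolem cardinal.
-/

namespace Vale.Agent.P307

open FirstOrder Cardinal Set FirstOrder.Language

universe u

theorem main3 (ρ : Cardinal.{u}) (hρ : ℵ₀ ≤ ρ) (L : FirstOrder.Language.{u, u})
    [L.IsRelational] [IsEmpty (L.Relations 0)] (K : AEC L) (hLS : K.LS ≤ ρ)
    {T : Type u} (D : T → Type u) [∀ t, L.Structure (D t)] (hT : #T ≤ ρ) (hD : ∀ t, #(D t) ≤ ρ)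
    (hD0 : ∀ t, Nonempty (D t)) (hDc : ∀ t, Connected L (D t))
    (hD1 : ∀ s t, Nonempty (D s ≃[L] D t) → s = t)
    (κ κ' : Cardinal.{u}) (hκ : ρ < κ) (hκ' : ρ < κ')
    (hK : ∀ (M : Type u) [L.Structure M], K.Mem M → #M = κ →
      ∃ (X : Type u) (c : X → T), Nonempty (MM D c ≃[L] M))
    (hK' : ∀ (M : Type u) [L.Structure M], K.Mem M → #M = κ' →
      ∃ (X : Type u) (c : X → T), Nonempty (MM D c ≃[L] M))
    (h : K.Categorical κ) : K.Categorical κ' := by
  classical
  have hls := isLS_LS K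
  let C : ColAEC T ρ := toCol K hls hLS hρ D hD hD0
  have hex : ∃ (X : Type u) (c : X → T), C.Cl X c ∧ #X = κ := by
    obtain ⟨M, _, hM, hMκ⟩ := h.1
    obtain ⟨X, c, ⟨e⟩⟩ := hK M hM hMκ
    exact ⟨X, c, K.mem_iso _ _ e.symm hM,
      (card_MM D hρ hD hD0 c hκ).1 ((Cardinal.mk_congr e.toEquiv).trans hMκ)⟩
  have hu : Uniq C κ := by
    intro X c Y d hX hY hcX hcY t
    obtain ⟨f⟩ := h.2 (MM D c) (MM D d) hX hY ((card_MM D hρ hD hD0 c hκ).2 hcX)
      ((card_MM D hρ hD hD0 d hκ).2 hcY)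
    obtain ⟨e, he⟩ := invariance D hDc hD0 hD1 c d f
    refine Cardinal.mk_congr (e.subtypeEquiv ?_)
    intro x
    show c x = t ↔ d (e x) = t
    rw [he]
  obtain ⟨h1, h2⟩ := transfer C hρ hT hκ hκ' hex hu
  constructor
  · obtain ⟨X, c, h3, h4⟩ := h1
    exact ⟨MM D c, inferInstance, h3, (card_MM D hρ hD hD0 c hκ').2 h4⟩
  · intro M N _ _ hM hN hMκ hNκ
    obtain ⟨X, c, ⟨f⟩⟩ := hK' M hM hMκ
    obtain ⟨Y, d, ⟨g⟩⟩ := hK' N hN hNκ
    have h3 := h2 X c Y d (K.mem_iso _ _ f.symm hM) (K.mem_iso _ _ g.symm hN)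
      ((card_MM D hρ hD hD0 c hκ').1 ((Cardinal.mk_congr f.toEquiv).trans hMκ))
      ((card_MM D hρ hD hD0 d hκ').1 ((Cardinal.mk_congr g.toEquiv).trans hNκ))
    obtain ⟨e, he⟩ := exists_equiv c d h3
    have h4 : c = fun x => d (e x) := by
      funext x; exact (he x).symm
    subst h4
    exact ⟨(g.comp (reindex D e d)).comp f.symm⟩

/-- copies of isomorphic structures. -/
def copiesCongr {L : FirstOrder.Language.{u, u}} [L.IsRelational] (I : Type u) {M N : Type u}
    [L.Structure M] [L.Structure N] (e : M ≃[L] N) : Copies I M ≃[L] Copies I N :=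
  mkIso (M := Copies I M) (N := Copies I N) (Equiv.prodCongr (Equiv.refl I) e.toEquiv) (by
    intro n r v
    constructor
    · rintro ⟨i, h1, h2⟩
      exact ⟨i, h1, (relMap_iso e n r _).1 h2⟩
    · rintro ⟨i, h1, h2⟩
      exact ⟨i, h1, (relMap_iso e n r _).2 h2⟩)

/-- copies of a disjoint union. -/
def copiesMM {L : FirstOrder.Language.{u, u}} [L.IsRelational] [IsEmpty (L.Relations 0)]
    (I : Type u) {T X : Type u} (D : T → Type u) [∀ t, L.Structure (D t)] (c : X → T) :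
    Copies I (MM D c) ≃[L] MM D (fun p : I × X => c p.2) :=
  mkIso (M := Copies I (MM D c)) (N := MM D (fun p : I × X => c p.2))
    { toFun := fun p => ⟨(p.1, p.2.1), p.2.2⟩
      invFun := fun q => (q.1.1, ⟨q.1.2, q.2⟩)
      left_inv := fun p => rfl
      right_inv := fun q => rfl } (by
    intro n r v
    constructor
    · rintro ⟨⟨i, x⟩, w, h1, h2⟩
      refine ⟨i, fun k => ?_, ⟨x, w, fun k => ?_, h2⟩⟩
      · exact congrArg (fun q : MM D (fun p : I × X => c p.2) => q.1.1) (h1 k)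
      · exact congrArg (fun q : MM D (fun p : I × X => c p.2) => (⟨q.1.2, q.2⟩ : MM D c)) (h1 k)
    · rintro ⟨i, h1, ⟨x, w, h2, h3⟩⟩
      refine ⟨(i, x), w, fun k => ?_, h3⟩
      have h4 : v k = (i, (⟨x, w k⟩ : MM D c)) := Prod.ext (h1 k) (h2 k)
      exact congrArg (fun p : I × MM D c =>
        (⟨(p.1, p.2.1), p.2.2⟩ : MM D (fun p : I × X => c p.2))) h4)

theorem closedCopies2 {L : FirstOrder.Language.{u, u}} [L.IsRelational] [IsEmpty (L.Relations 0)]
    (K : AEC L) (hcop : K.ClosedCopies)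
    (κ κ' : Cardinal.{u}) (hκ : K.LS < κ) (hκ' : K.LS < κ') (h : K.Categorical κ) :
    K.Categorical κ' := by
  classical
  have hls := isLS_LS K
  set ρ := K.LS with hρdef
  have hρ : ℵ₀ ≤ ρ := hls.1
  have hκ0 : ℵ₀ ≤ κ := hρ.trans hκ.le
  have hinf : Infinite κ.out := Cardinal.infinite_iff.2 (by rw [Cardinal.mk_out]; exact hκ0)
  have hcard : ∀ (M : Type u), Nonempty M → #M ≤ κ → #(Copies κ.out M) = κ := by
    intro M hM hMκ
    have h1 : #(Copies κ.out M) = #κ.out * #M := by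
      show #(κ.out × M) = _
      rw [Cardinal.mk_prod, Cardinal.lift_id, Cardinal.lift_id]
    rw [h1, Cardinal.mk_out]
    exact Cardinal.mul_eq_left hκ0 hMκ (Cardinal.mk_ne_zero_iff.2 hM)
  obtain ⟨M0, _, hM0, hM0κ⟩ := h.1
  have hM0ne : Nonempty M0 := by
    rw [← Cardinal.mk_ne_zero_iff, hM0κ]
    exact (lt_of_lt_of_le Cardinal.aleph0_pos hκ0).ne'
  obtain ⟨a⟩ := hM0ne
  obtain ⟨N, hN1, hN2, hN3⟩ := hls.2.2 M0 hM0 {a}
  have hNmem : K.Mem N := (K.mem_of_le _ _ hN2).1
  have hNρ : #N ≤ ρ := by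
    refine hN3.trans ?_
    rw [Cardinal.mk_singleton]
    exact (add_le_add (Cardinal.one_le_aleph0.trans hρ) le_rfl).trans (Cardinal.add_eq_self hρ).le
  have hP : K.Mem (Copies κ.out N) := hcop N hNmem κ.out
  have hPc : #(Copies κ.out N) = κ := hcard N ⟨⟨a, hN1 rfl⟩⟩ (hNρ.trans hκ.le)
  have hPs : SmallComponents L ρ (Copies κ.out N) := small_copies _ _ ρ hNρ
  have hKs : ∀ (M : Type u) [L.Structure M], K.Mem M → #M = κ → SmallComponents L ρ M := by
    intro M _ hM hMκ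
    obtain ⟨e⟩ := h.2 M (Copies κ.out N) hM hP hMκ hPc
    exact small_iso e hPs
  obtain ⟨x0⟩ : Nonempty κ.out := inferInstance
  have hKs' : ∀ (M : Type u) [L.Structure M], K.Mem M → ρ < #M → SmallComponents L ρ M := by
    intro M _ hM hMρ
    rcases le_or_gt κ #M with hle | hlt
    · exact small_up K ρ κ hρ le_rfl hκ hKs M hM hle
    · have hMne : Nonempty M := by
        rw [← Cardinal.mk_ne_zero_iff]
        exact (lt_of_le_of_lt bot_le hMρ).ne'
      have hQ : K.Mem (Copies κ.out M) := hcop M hM κ.out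
      have hQs := hKs _ hQ (hcard M hMne hlt.le)
      refine small_of_inj (N := Copies κ.out M) (fun m : M => (x0, m)) ?_ ?_ hQs
      · intro m m' hm
        exact congrArg Prod.snd hm
      · intro n R v hv
        exact ⟨x0, fun k => rfl, hv⟩
  -- the family of all small connected structures
  obtain ⟨T, D, inst, hT, hD, hD0, hDc, hD1, hcov⟩ := exists_family L ρ hρ hls.2.1
  -- the components of `N`
  have hNs : SmallComponents L ρ N :=
    ⟨⊤, fun a => (Cardinal.mk_subtype_le _).trans hNρ, fun _ _ _ _ _ _ => trivial⟩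
  obtain ⟨XN, cN, ⟨eN⟩⟩ := decompose D hcov N hNs
  have hXN : #XN ≤ ρ := by
    have h1 : #XN ≤ #(MM D cN) := Cardinal.mk_le_of_surjective (f := fun p : MM D cN => p.1)
      (fun x => ⟨⟨x, (hD0 _).some⟩, rfl⟩)
    exact (h1.trans (Cardinal.mk_congr eN.toEquiv).le).trans hNρ
  let eP : MM D (fun p : κ.out × XN => cN p.2) ≃[L] Copies κ.out N :=
    (copiesCongr κ.out eN).comp (copiesMM κ.out D cN).symm
  -- members of size `κ` only have components of these types
  have hA : ∀ (X : Type u) (c : X → T), K.Mem (MM D c) → #(MM D c) = κ →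
      ∀ x, c x ∈ Set.range cN := by
    intro X c hX hXκ x
    obtain ⟨f⟩ := h.2 (MM D c) (Copies κ.out N) hX hP hXκ hPc
    obtain ⟨e, he⟩ := invariance D hDc hD0 hD1 c (fun p : κ.out × XN => cN p.2)
      (eP.symm.comp f)
    exact ⟨(e x).2, he x⟩
  have hB : ∀ (X : Type u) (c : X → T), K.Mem (MM D c) → ρ < #(MM D c) →
      ∀ x, c x ∈ Set.range cN := by
    intro X c hX hXρ x
    rcases le_or_gt (#(MM D c)) κ with hle | hlt
    · have hne : Nonempty (MM D c) := by
        rw [← Cardinal.mk_ne_zero_iff]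
        exact (lt_of_le_of_lt bot_le hXρ).ne'
      have hQ : K.Mem (Copies κ.out (MM D c)) := hcop _ hX κ.out
      have hQ' : K.Mem (MM D (fun p : κ.out × X => c p.2)) :=
        K.mem_iso _ _ (copiesMM κ.out D c) hQ
      have hQc : #(MM D (fun p : κ.out × X => c p.2)) = κ := by
        rw [← Cardinal.mk_congr (copiesMM (L := L) κ.out D c).toEquiv]
        exact hcard _ hne hle
      exact hA _ _ hQ' hQc (x0, x)
    · have hXc : #X = #(MM D c) := (card_MM D hρ hD hD0 c hXρ).1 rfl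
      have h1 : κ ≤ #X := by rw [hXc]; exact hlt.le
      obtain ⟨A, hAκ⟩ := Cardinal.le_mk_iff_exists_set.1 h1
      have hA' : #(insert x A : Set X) ≤ κ := by
        refine Cardinal.mk_insert_le.trans ?_
        rw [hAκ, Cardinal.add_one_eq hκ0]
      obtain ⟨B, hB1, hB2, hB3⟩ := ls_cyl K hls hκ.le hκ0 D
        (fun t => (hD t).trans hκ.le) hD0 c hX _ hA'
      have hBκ : #B = κ := by
        apply le_antisymm hB2
        rw [← hAκ]
        exact Cardinal.mk_le_mk_of_subset (fun y hy => hB1 (Or.inr hy))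
      have hBm : K.Mem (MM D (fun b : B => c b)) :=
        K.mem_iso _ _ (cylIso L D c B) (K.mem_of_le _ _ hB3).1
      exact hA _ _ hBm ((card_MM D hρ hD hD0 _ hκ).2 hBκ) ⟨x, hB1 (Or.inl rfl)⟩
  have hdec : ∀ (M : Type u) [L.Structure M], K.Mem M → ρ < #M →
      ∃ (X : Type u) (c : X → Set.range cN), Nonempty (MM (fun t : Set.range cN => D t) c ≃[L] M) := by
    intro M _ hM hMρ
    obtain ⟨X, c, ⟨e⟩⟩ := decompose D hcov M (hKs' M hM hMρ)
    have h1 := hB X c (K.mem_iso _ _ e.symm hM)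
      (by rw [Cardinal.mk_congr e.toEquiv]; exact hMρ)
    exact ⟨X, fun x => ⟨c x, h1 x⟩, ⟨e⟩⟩
  refine main3 ρ hρ L K le_rfl (fun t : Set.range cN => D t) (Cardinal.mk_range_le.trans hXN)
    (fun t => hD t) (fun t => hD0 t) (fun t => hDc t)
    (fun s t hst => Subtype.ext (hD1 s.1 t.1 hst)) κ κ' hκ hκ' ?_ ?_ h
  · intro M _ hM hMκ
    exact hdec M hM (by rw [hMκ]; exact hκ)
  · intro M _ hM hMκ
    exact hdec M hM (by rw [hMκ]; exact hκ')

end Vale.Agent.P307
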