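import Mathlib
import Vale.Agent.P307.Defs
import Vale.Agent.P307.Mods.Defs

/-!
Transfer of categoricity above a cardinal.
-/

namespace Vale.Agent.P307

open Cardinal

universe u

/-- if `K` is categorical in some cardinal above `θ` then it is categorical in all of them. -/
def AEC.TransfersAbove {L : FirstOrder.Language.{u, u}} (K : AEC L) (θ : Cardinal.{u}) : Prop :=
  ∀ κ : Cardinal.{u}, θ < κ → K.Categorical κ → ∀ κ' : Cardinal.{u}, θ < κ' → K.Categorical κ'

/-- if `K` is categorical in some cardinal above `θ` then it is categorical in all of them. -/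
def ModAEC.TransfersAbove {R : Type u} [Ring R] (K : ModAEC R) (θ : Cardinal.{u}) : Prop :=
  ∀ κ : Cardinal.{u}, θ < κ → K.Categorical κ → ∀ κ' : Cardinal.{u}, θ < κ' → K.Categorical κ'

end Vale.Agent.P307
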