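import Mathlib
import Vale.Agent.P307.DefsC

/-!
Disjoint unions of copies in vocabularies with unary function symbols and relation symbols of
positive arity.
-/

namespace Vale.Agent.P307

open FirstOrder Cardinal FirstOrder.Language

universe u

/-- the vocabulary has only unary function symbols and relation symbols of positive arity. -/
class UnaryLanguage (L : FirstOrder.Language.{u, u}) : Prop where
  fun_empty : ∀ n : ℕ, n ≠ 1 → IsEmpty (L.Functions n)
  rel_empty : IsEmpty (L.Relations 0)

/-- the disjoint union of copies of `M` indexed by `I`. -/
def CopiesU (I M : Type u) : Type u := I × M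

/-- in the disjoint union of copies of `M`, the unary functions act in each copy, and a tuple is
related if it lies in one copy and is related there. -/
instance instCopiesU {L : FirstOrder.Language.{u, u}} [UnaryLanguage L] (I M : Type u)
    [L.Structure M] : L.Structure (CopiesU I M) where
  funMap := fun {n} (f : L.Functions n) (v : Fin n → CopiesU I M) =>
    if h : n = 1 then ((v ⟨0, by omega⟩).1, Structure.funMap f (fun k => (v k).2))
    else ((UnaryLanguage.fun_empty n h).false f).elim
  RelMap := fun {n} (r : L.Relations n) (v : Fin n → CopiesU I M) =>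
    ∃ i : I, (∀ k, (v k).1 = i) ∧ Structure.RelMap r (fun k => (v k).2)

/-- `K` is closed under disjoint unions of infinitely many copies of one member. -/
def AEC.ClosedCopiesU {L : FirstOrder.Language.{u, u}} [UnaryLanguage L] (K : AEC L) : Prop :=
  ∀ (M : Type u) [L.Structure M], K.Mem M → ∀ (I : Type u) [Infinite I], K.Mem (CopiesU I M)

/-- replacing the unary functions by their graphs. -/
def StmtUn : Prop :=
  ∀ (L : FirstOrder.Language.{u, u}) [UnaryLanguage L] (K : AEC L), K.ClosedCopiesU →
    ∃ (L' : FirstOrder.Language.{u, u}) (_ : L'.IsRelational) (_ : IsEmpty (L'.Relations 0))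
      (K' : AEC L'), K'.ClosedCopies ∧ (∀ ℓ, K.IsLS ℓ ↔ K'.IsLS ℓ) ∧
      ∀ κ, K.Categorical κ ↔ K'.Categorical κ

end Vale.Agent.P307
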