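import Vale.Agent.P307.Col

/-!
Good subsets are strong.
-/

namespace Vale.Agent.P307

open Cardinal Set

universe u

lemma exists_filtration {X : Type u} (F : Set X) (h : ℵ₀ ≤ #F) :
    ∃ (ι : Type u) (_ : LinearOrder ι) (_ : WellFoundedLT ι) (_ : Nonempty ι) (Z : ι → Set X),
      Monotone Z ∧ (∀ i, #(Z i) < #F) ∧ (⋃ i, Z i) = F := by
  have hne : (#F).ord ≠ 0 := by
    intro h0
    rw [Cardinal.ord_eq_zero] at h0
    rw [h0] at h
    exact absurd h (not_le.2 Cardinal.aleph0_pos)
  have hcard : #((#F).ord.ToType) = #F := by simp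
  obtain ⟨f⟩ := Cardinal.eq.1 hcard
  refine ⟨(#F).ord.ToType, inferInstance, inferInstance, Ordinal.nonempty_toType_iff.2 hne,
    fun i => (fun a => (f a : X)) '' (Set.Iic i), ?_, ?_, ?_⟩
  · intro i j hij
    exact Set.image_mono (Set.Iic_subset_Iic.2 hij)
  · intro i
    refine lt_of_le_of_lt Cardinal.mk_image_le ?_
    have h1 : (Set.Iic i) = insert i (Set.Iio i) := by
      ext x; simp [le_iff_eq_or_lt]
    rw [h1]
    refine lt_of_le_of_lt Cardinal.mk_insert_le ?_
    exact Cardinal.add_lt_of_lt h (Cardinal.mk_Iio_toType_ord_lt i)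
      (lt_of_lt_of_le Cardinal.one_lt_aleph0 h)
  · ext x
    simp only [Set.mem_iUnion, Set.mem_image, Set.mem_Iic]
    constructor
    · rintro ⟨i, a, _, rfl⟩
      exact (f a).2
    · intro hx
      exact ⟨f.symm ⟨x, hx⟩, f.symm ⟨x, hx⟩, le_rfl, by simp⟩

lemma card_diff_eq {X : Type u} {F B : Set X} (hF : ℵ₀ ≤ #F) (h : #(B ∩ F : Set X) < #F) :
    #(F \ B : Set X) = #F := by
  apply le_antisymm (Cardinal.mk_le_mk_of_subset Set.diff_subset)
  by_contra hlt
  rw [not_le] at hlt
  have h1 : F ⊆ (F \ B) ∪ (B ∩ F) := by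
    intro x hx
    by_cases hb : x ∈ B
    · exact Or.inr ⟨hb, hx⟩
    · exact Or.inl ⟨hx, hb⟩
  have h2 : #F ≤ #(F \ B : Set X) + #(B ∩ F : Set X) :=
    (Cardinal.mk_le_mk_of_subset h1).trans (Cardinal.mk_union_le _ _)
  exact absurd h2 (not_le.2 (Cardinal.add_lt_of_lt hF hlt h))

lemma good_univ {T X : Type u} (χ : Cardinal.{u}) (c : X → T) : Good χ c Set.univ := by
  intro t
  refine ⟨fun _ => Set.subset_univ _, fun h => ?_⟩
  rw [Set.univ_inter]; exact h.le

lemma good_card_small {T X : Type u} {χ : Cardinal.{u}} (hχ : ℵ₀ ≤ χ) (c : X → T) (A : Set X)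
    (hA : Good χ c A) (hAc : #A ≤ χ) (t : T) :
    (#(fib c t) ≤ χ → A ∩ fib c t = fib c t ∧ (fib c t \ A) = ∅) ∧
    (χ < #(fib c t) → #(A ∩ fib c t : Set X) = χ ∧ #(fib c t \ A : Set X) = #(fib c t)) := by
  constructor
  · intro h
    have h1 := (hA t).1 h
    exact ⟨Set.inter_eq_right.2 h1, Set.diff_eq_empty.2 h1⟩
  · intro h
    have h1 : #(A ∩ fib c t : Set X) = χ :=
      le_antisymm ((Cardinal.mk_le_mk_of_subset Set.inter_subset_left).trans hAc) ((hA t).2 h)
    refine ⟨h1, card_diff_eq (hχ.trans h.le) ?_⟩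
    rw [h1]; exact h

theorem good_strong {T : Type u} {χ : Cardinal.{u}} (K : ColAEC T χ) (hχ : ℵ₀ ≤ χ) (hT : #T ≤ χ)
    (X : Type u) (c : X → T) (hX : K.Cl X c) : ∀ A : Set X, Good χ c A → K.St X c A := by
  -- small good sets
  have hsmall : ∀ A : Set X, Good χ c A → #A ≤ χ → K.St X c A := by
    intro A hA hAc
    obtain ⟨B0, _, hB0, hB0c⟩ := exists_good_sub hχ hT c _ (good_univ χ c)
    obtain ⟨B, hB1, hB2, hB3⟩ := K.ls X c hX B0 hB0c
    have hB : Good χ c B := hB0.mono hB1
    obtain ⟨e, he1, he2⟩ := exists_equiv_rel c c B A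
      (by
        intro t
        rcases le_or_gt (#(fib c t)) χ with h | h
        · rw [((good_card_small hχ c B hB hB2 t).1 h).1, ((good_card_small hχ c A hA hAc t).1 h).1]
        · rw [((good_card_small hχ c B hB hB2 t).2 h).1, ((good_card_small hχ c A hA hAc t).2 h).1])
      (by
        intro t
        rcases le_or_gt (#(fib c t)) χ with h | h
        · rw [((good_card_small hχ c B hB hB2 t).1 h).2, ((good_card_small hχ c A hA hAc t).1 h).2]
        · rw [((good_card_small hχ c B hB hB2 t).2 h).2, ((good_card_small hχ c A hA hAc t).2 h).2])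
    rw [← he2]
    apply K.iso X X e c B
    have h1 : (fun x => c (e x)) = c := funext he1
    rw [h1]; exact hB3
  have key : ∀ κ : Cardinal.{u}, ∀ A : Set X, #A = κ → Good χ c A → K.St X c A := by
    intro κ
    induction κ using Cardinal.lt_wf.induction with
    | h κ ih =>
      intro A hAκ hA
      rcases le_or_gt (#A) χ with h | h
      · exact hsmall A hA h
      · obtain ⟨B0, hB0A, hB0, hB0c⟩ := exists_good_sub hχ hT c A hA
        obtain ⟨ι, i1, i2, i3, Z, hZm, hZc, hZu⟩ := exists_filtration A (hχ.trans h.le)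
        have hU : A = ⋃ i, (B0 ∪ Z i) := by
          rw [← Set.union_iUnion, hZu, Set.union_eq_right.2 hB0A]
        rw [hU]
        apply K.chain2 X c ι
        · intro i j hij
          exact Set.union_subset_union_right _ (hZm hij)
        · intro i
          refine ih (#(B0 ∪ Z i : Set X)) ?_ _ rfl (hB0.mono Set.subset_union_left)
          rw [← hAκ]
          exact lt_of_le_of_lt (Cardinal.mk_union_le _ _)
            (Cardinal.add_lt_of_lt (hχ.trans h.le) (lt_of_le_of_lt hB0c h) (hZc i))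
  intro A hA
  exact key _ A rfl hA

end Vale.Agent.P307
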