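import Mathlib
import Vale.Agent.P307.Transfer

/-!
Categoricity transfer up to an equivalence relation on coloured sets which is compatible with sums
and with closing off.
-/

namespace Vale.Agent.P307

open Cardinal Set

universe u

/-- an equivalence of coloured sets compatible with sums and closing off. -/
structure Sim (T : Type u) (χ : Cardinal.{u}) where
  Rel : ∀ (X : Type u) (_ : X → T) (Y : Type u) (_ : Y → T), Prop
  iso : ∀ (X Y : Type u) (e : X ≃ Y) (c : X → T) (d : Y → T), (∀ x, d (e x) = c x) → Rel X c Y d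
  symm : ∀ (X : Type u) (c : X → T) (Y : Type u) (d : Y → T), Rel X c Y d → Rel Y d X c
  trans : ∀ (X : Type u) (c : X → T) (Y : Type u) (d : Y → T) (Z : Type u) (b : Z → T),
    Rel X c Y d → Rel Y d Z b → Rel X c Z b
  sum : ∀ (I : Type u) (X Y : I → Type u) (c : ∀ i, X i → T) (d : ∀ i, Y i → T),
    (∀ i, Rel (X i) (c i) (Y i) (d i)) →
    Rel (Σ i, X i) (fun p => c p.1 p.2) (Σ i, Y i) (fun p => d p.1 p.2)
  close : ∀ (X : Type u) (c : X → T) (Y : Type u) (d : Y → T), Rel X c Y d →
    ∀ (A0 : Set X) (B0 : Set Y), #A0 ≤ χ → #B0 ≤ χ → ∃ (A : Set X) (B : Set Y), A0 ⊆ A ∧ B0 ⊆ B ∧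
      #A ≤ χ ∧ #B ≤ χ ∧ Rel A (fun a => c a) B (fun b => d b) ∧
      Rel (Aᶜ : Set X) (fun a => c a) (Bᶜ : Set Y) (fun b => d b)

/-- the relation on profiles. -/
def PR {T : Type u} {χ : Cardinal.{u}} (S : Sim T χ) (m n : T → Cardinal.{u}) : Prop :=
  ∀ (X : Type u) (c : X → T) (Y : Type u) (d : Y → T), (∀ t, #(fib c t) = m t) →
    (∀ t, #(fib d t) = n t) → S.Rel X c Y d

lemma rel_of_profile {T : Type u} {χ : Cardinal.{u}} (S : Sim T χ) {X Y : Type u} (c : X → T)
    (d : Y → T) (h : ∀ t, #(fib c t) = #(fib d t)) : S.Rel X c Y d := by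
  obtain ⟨e, he⟩ := exists_equiv c d h
  exact S.iso X Y e c d he

lemma PR_of_rel {T : Type u} {χ : Cardinal.{u}} (S : Sim T χ) {X Y : Type u} {c : X → T}
    {d : Y → T} (h : S.Rel X c Y d) {m n : T → Cardinal.{u}} (hm : ∀ t, #(fib c t) = m t)
    (hn : ∀ t, #(fib d t) = n t) : PR S m n := by
  intro X' c' Y' d' hm' hn'
  refine S.trans _ _ _ _ _ _ (rel_of_profile S c' c (fun t => by rw [hm, hm'])) ?_
  exact S.trans _ _ _ _ _ _ h (rel_of_profile S d d' (fun t => by rw [hn, hn']))

lemma PR_refl {T : Type u} {χ : Cardinal.{u}} (S : Sim T χ) (m : T → Cardinal.{u}) :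
    PR S m m := by
  intro X c Y d h1 h2
  exact rel_of_profile S c d (fun t => by rw [h1, h2])

lemma PR_symm {T : Type u} {χ : Cardinal.{u}} {S : Sim T χ} {m n : T → Cardinal.{u}}
    (h : PR S m n) : PR S n m := by
  intro X c Y d h1 h2
  exact S.symm _ _ _ _ (h Y d X c h2 h1)

lemma PR_trans {T : Type u} {χ : Cardinal.{u}} {S : Sim T χ} {m n k : T → Cardinal.{u}}
    (h : PR S m n) (h' : PR S n k) : PR S m k := by
  intro X c Y d h1 h2
  obtain ⟨Z, b, hb⟩ := realize n
  exact S.trans _ _ _ _ _ _ (h X c Z b h1 hb) (h' Z b Y d hb h2)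

lemma card_fib_sigma {T I : Type u} (X : I → Type u) (c : ∀ i, X i → T) (t : T) :
    #(fib (fun p : (Σ i, X i) => c p.1 p.2) t) = Cardinal.sum (fun i => #(fib (c i) t)) := by
  rw [← Cardinal.mk_sigma]
  refine Cardinal.mk_congr
    { toFun := fun p => ⟨p.1.1, ⟨p.1.2, p.2⟩⟩
      invFun := fun q => ⟨⟨q.1, q.2.1⟩, q.2.2⟩
      left_inv := fun p => rfl
      right_inv := fun q => rfl }

lemma PR_sum {T : Type u} {χ : Cardinal.{u}} {S : Sim T χ} {I : Type u}
    {m n : I → T → Cardinal.{u}} (h : ∀ i, PR S (m i) (n i)) {M N : T → Cardinal.{u}}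
    (hM : ∀ t, M t = Cardinal.sum (fun i => m i t)) (hN : ∀ t, N t = Cardinal.sum (fun i => n i t)) :
    PR S M N := by
  have h1 : ∀ i, ∃ (Y : Type u) (d : Y → T), ∀ t, #(fib d t) = m i t := fun i => realize (m i)
  have h2 : ∀ i, ∃ (Y : Type u) (d : Y → T), ∀ t, #(fib d t) = n i t := fun i => realize (n i)
  choose X c hc using h1
  choose Y d hd using h2
  refine PR_of_rel S (S.sum I X Y c d (fun i => h i _ _ _ _ (hc i) (hd i))) ?_ ?_
  · intro t
    rw [card_fib_sigma, hM]
    congr 1
    funext i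
    exact hc i t
  · intro t
    rw [card_fib_sigma, hN]
    congr 1
    funext i
    exact hd i t

lemma sum_single {T : Type u} [DecidableEq T] (f : T → Cardinal.{u}) (t : T) :
    Cardinal.sum (fun s => if t = s then f s else 0) = f t := by
  have h1 : ∀ s, (if t = s then f s else 0) = #{x : (f s).out // t = s} := by
    intro s
    split_ifs with h
    · subst h
      have h2 : #{x : (f t).out // t = t} = #((f t).out) :=
        Cardinal.mk_congr (Equiv.subtypeUnivEquiv (fun _ => rfl))
      rw [h2, Cardinal.mk_out]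
    · symm
      rw [Cardinal.mk_eq_zero_iff]
      exact ⟨fun x => h x.2⟩
  simp only [h1]
  rw [← Cardinal.mk_sigma]
  conv_rhs => rw [← Cardinal.mk_out (f t)]
  refine Cardinal.mk_congr
    { toFun := fun p => p.2.2 ▸ p.2.1
      invFun := fun x => ⟨t, ⟨x, rfl⟩⟩
      left_inv := by
        rintro ⟨s, x, h⟩
        subst h
        rfl
      right_inv := fun x => rfl }

lemma sum_ulift_bool (a b : Cardinal.{u}) :
    Cardinal.sum (fun i : ULift.{u} Bool => if i.down then a else b) = a + b := by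
  have h1 : (fun i : ULift.{u} Bool => if i.down then a else b) =
      (fun i : ULift.{u} Bool => if (ULift.up true) = i then a else 0) +
      (fun i : ULift.{u} Bool => if (ULift.up false) = i then b else 0) := by
    funext ⟨i⟩
    cases i <;> simp
  rw [h1, Cardinal.sum_add_distrib, sum_single (fun _ => a), sum_single (fun _ => b)]

lemma PR_add {T : Type u} {χ : Cardinal.{u}} {S : Sim T χ} {a b a' b' : T → Cardinal.{u}}
    (h : PR S a b) (h' : PR S a' b') : PR S (fun t => a t + a' t) (fun t => b t + b' t) := by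
  refine PR_sum (I := ULift.{u} Bool) (m := fun i => if i.down then a else a')
    (n := fun i => if i.down then b else b') ?_ ?_ ?_
  · rintro ⟨i⟩
    cases i
    · exact h'
    · exact h
  · intro t
    rw [← sum_ulift_bool]
    congr 1
    funext ⟨i⟩
    cases i <;> rfl
  · intro t
    rw [← sum_ulift_bool]
    congr 1
    funext ⟨i⟩
    cases i <;> rfl

lemma PR_close {T : Type u} {χ : Cardinal.{u}} (S : Sim T χ) (hχ : ℵ₀ ≤ χ) (hT : #T ≤ χ)
    {m n : T → Cardinal.{u}} (h : PR S m n) :
    PR S (fun t => min (m t) χ) (fun t => min (n t) χ) ∧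
    PR S (fun t => if m t ≤ χ then 0 else m t) (fun t => if n t ≤ χ then 0 else n t) := by
  obtain ⟨X, c, hc⟩ := realize m
  obtain ⟨Y, d, hd⟩ := realize n
  have key : ∀ (Z : Type u) (b : Z → T), ∃ A0 : Set Z, #A0 ≤ χ ∧ ∀ A : Set Z, A0 ⊆ A → #A ≤ χ →
      (∀ t, #(fib (fun a : A => b a) t) = min (#(fib b t)) χ) ∧
      (∀ t, #(fib (fun a : (Aᶜ : Set Z) => b a) t) =
        if #(fib b t) ≤ χ then 0 else #(fib b t)) := by
    intro Z b
    have h1 : ∀ t, ∃ B : Set Z, B ⊆ fib b t ∧ #B = min (#(fib b t)) χ ∧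
        (#(fib b t) ≤ χ → B = fib b t) := by
      intro t
      rcases le_or_gt (#(fib b t)) χ with h3 | h3
      · exact ⟨fib b t, subset_rfl, (min_eq_left h3).symm, fun _ => rfl⟩
      · obtain ⟨B, hB1, hB2⟩ := Cardinal.le_mk_iff_exists_subset.1 h3.le
        exact ⟨B, hB1, by rw [hB2, min_eq_right h3.le], fun h => absurd h (not_le.2 h3)⟩
    choose B hB1 hB2 hB3 using h1
    have hBA : ∀ t, (⋃ s, B s) ∩ fib b t = B t := by
      intro t
      ext x
      simp only [Set.mem_inter_iff, Set.mem_iUnion]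
      constructor
      · rintro ⟨⟨s, hs⟩, hx⟩
        have h2 : s = t := by
          have h4 : b x = s := hB1 s hs
          have h5 : b x = t := hx
          rw [← h4, h5]
        rw [← h2]; exact hs
      · intro hx
        exact ⟨⟨t, hx⟩, hB1 t hx⟩
    refine ⟨⋃ t, B t, ?_, ?_⟩
    · apply card_le_of_fibers hχ hT b
      intro t
      rw [hBA, hB2]
      exact min_le_right _ _
    · intro A hA hAχ
      constructor
      · intro t
        rw [card_fib_sub]
        apply le_antisymm
        · apply le_min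
          · exact Cardinal.mk_le_mk_of_subset Set.inter_subset_right
          · exact (Cardinal.mk_le_mk_of_subset Set.inter_subset_left).trans hAχ
        · rw [← hB2]
          refine Cardinal.mk_le_mk_of_subset ?_
          intro x hx
          exact ⟨hA (Set.mem_iUnion.2 ⟨t, hx⟩), hB1 t hx⟩
      · intro t
        rw [card_fib_sub]
        split_ifs with h3
        · rw [Cardinal.mk_eq_zero_iff]
          refine ⟨fun x => ?_⟩
          apply x.2.1
          apply hA
          rw [Set.mem_iUnion]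
          refine ⟨t, ?_⟩
          rw [hB3 t h3]
          exact x.2.2
        · rw [not_le] at h3
          have h4 : fib b t ⊆ A ∪ (Aᶜ ∩ fib b t) := by
            intro x hx
            by_cases hxA : x ∈ A
            · exact Or.inl hxA
            · exact Or.inr ⟨hxA, hx⟩
          apply le_antisymm
          · exact Cardinal.mk_le_mk_of_subset Set.inter_subset_right
          · by_contra hcon
            rw [not_le] at hcon
            have h5 : #(fib b t) ≤ #A + #(Aᶜ ∩ fib b t : Set Z) :=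
              (Cardinal.mk_le_mk_of_subset h4).trans (Cardinal.mk_union_le _ _)
            have h6 : #A + #(Aᶜ ∩ fib b t : Set Z) < #(fib b t) :=
              Cardinal.add_lt_of_lt (hχ.trans h3.le) (lt_of_le_of_lt hAχ h3) hcon
            exact absurd h5 (not_le.2 h6)
  obtain ⟨A0, hA0, hA0'⟩ := key X c
  obtain ⟨B0, hB0, hB0'⟩ := key Y d
  obtain ⟨A, B, h1, h2, h3, h4, h5, h6⟩ := S.close X c Y d (h X c Y d hc hd) A0 B0 hA0 hB0
  constructor
  · refine PR_of_rel S h5 ?_ ?_
    · intro t
      rw [(hA0' A h1 h3).1, hc]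
    · intro t
      rw [(hB0' B h2 h4).1, hd]
  · refine PR_of_rel S h6 ?_ ?_
    · intro t
      rw [(hA0' A h1 h3).2, hc]
    · intro t
      rw [(hB0' B h2 h4).2, hd]

end Vale.Agent.P307
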