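import Mathlib
import Vale.Agent.P307.Sim

/-!
Categoricity transfer up to an equivalence relation: the theorem.
-/

namespace Vale.Agent.P307

open Cardinal Set

universe u

/-- the profile with `l` points of colour `s` and no others. -/
noncomputable def sg {T : Type u} (s : T) (l : Cardinal.{u}) : T → Cardinal.{u} := by
  classical
  exact fun t => if t = s then l else 0

lemma sg_self {T : Type u} (s : T) (l : Cardinal.{u}) : sg s l s = l := by
  simp [sg]

lemma sg_ne {T : Type u} {s t : T} (h : t ≠ s) (l : Cardinal.{u}) : sg s l t = 0 := by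
  simp [sg, h]

lemma PR_mul {T : Type u} {χ : Cardinal.{u}} {S : Sim T χ} (hχ : ℵ₀ ≤ χ) {s t : T}
    (h : PR S (sg s χ) (sg t χ)) {l : Cardinal.{u}} (hl : χ ≤ l) : PR S (sg s l) (sg t l) := by
  have h1 : l * χ = l := Cardinal.mul_eq_left (hχ.trans hl) hl (by
    intro h0; rw [h0] at hχ; exact absurd hχ (not_le.2 Cardinal.aleph0_pos))
  have h2 : ∀ (s t : T), sg s l t = Cardinal.sum (fun _ : l.out => sg s χ t) := by
    intro s t
    rw [Cardinal.sum_const', Cardinal.mk_out]
    by_cases h3 : t = s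
    · subst h3; rw [sg_self, sg_self, h1]
    · rw [sg_ne h3, sg_ne h3, mul_zero]
  exact PR_sum (I := l.out) (fun _ => h) (h2 s) (h2 t)

/-- gathering the large colours. -/
lemma PR_gather {T : Type u} {χ : Cardinal.{u}} {S : Sim T χ} (hχ : ℵ₀ ≤ χ) {t1 : T}
    (h : T → Cardinal.{u}) (hh : ∀ s, h s = 0 ∨ (χ ≤ h s ∧ PR S (sg s χ) (sg t1 χ))) :
    PR S h (sg t1 (Cardinal.sum h)) := by
  classical
  refine PR_sum (I := T) (m := fun s => sg s (h s)) (n := fun s => sg t1 (h s)) ?_ ?_ ?_
  · intro s
    rcases hh s with h0 | ⟨h1, h2⟩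
    · have h3 : sg s (h s) = sg t1 (h s) := by
        rw [h0]
        funext t
        by_cases h4 : t = s
        · by_cases h5 : t = t1
          · rw [← h4, ← h5]
          · rw [sg_ne h5]; subst h4; rw [sg_self]
        · rw [sg_ne h4]
          by_cases h5 : t = t1
          · subst h5; rw [sg_self]
          · rw [sg_ne h5]
      show PR S (sg s (h s)) (sg t1 (h s))
      rw [h3]; exact PR_refl S _
    · exact PR_mul hχ h2 h1
  · intro t
    rw [← sum_single h t]
    congr 1
  · intro t
    by_cases h1 : t = t1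
    · subst h1
      rw [sg_self]
      congr 1
      funext s
      rw [sg_self]
    · rw [sg_ne h1]
      have h2 : (fun s => sg t1 (h s) t) = fun _ : T => (0 : Cardinal.{u}) := by
        funext s; exact sg_ne h1 _
      rw [h2, Cardinal.sum_const', mul_zero]

lemma card_eq_sum {T X : Type u} (c : X → T) : #X = Cardinal.sum (fun t => #(fib c t)) := by
  rw [← Cardinal.mk_sigma]
  exact Cardinal.mk_congr (Equiv.sigmaFiberEquiv c).symm

lemma sum_high {T : Type u} {χ κ : Cardinal.{u}} (hχ : ℵ₀ ≤ χ) (hT : #T ≤ χ)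
    (m : T → Cardinal.{u}) (hm : Cardinal.sum m = κ) (hκ : χ < κ) :
    Cardinal.sum (fun t => if m t ≤ χ then 0 else m t) = κ := by
  have h1 : m = (fun t => if m t ≤ χ then m t else 0) + (fun t => if m t ≤ χ then 0 else m t) := by
    funext t
    simp only [Pi.add_apply]
    split_ifs <;> simp
  have h2 : Cardinal.sum (fun t => if m t ≤ χ then m t else 0) ≤ χ := by
    refine (Cardinal.sum_le_sum _ (fun _ => χ) ?_).trans ?_
    · intro t
      split_ifs with h
      · exact h
      · exact bot_le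
    · rw [Cardinal.sum_const']
      exact (mul_le_mul' hT le_rfl).trans (Cardinal.mul_eq_self hχ).le
  apply le_antisymm
  · rw [← hm]
    refine Cardinal.sum_le_sum _ _ ?_
    intro t
    split_ifs
    · exact bot_le
    · exact le_rfl
  · by_contra hcon
    rw [not_le] at hcon
    rw [h1, Cardinal.sum_add_distrib] at hm
    have h3 := Cardinal.add_lt_of_lt (hχ.trans hκ.le) (lt_of_le_of_lt h2 hκ) hcon
    rw [hm] at h3
    exact lt_irrefl _ h3

theorem transferR {T : Type u} {χ : Cardinal.{u}} (K : ColAEC T χ) (S : Sim T χ) (hχ : ℵ₀ ≤ χ)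
    (hT : #T ≤ χ) {κ κ' : Cardinal.{u}} (hκ : χ < κ) (hκ' : χ < κ')
    (hex : ∃ (X : Type u) (c : X → T), K.Cl X c ∧ #X = κ)
    (hu : ∀ (X : Type u) (c : X → T) (Y : Type u) (d : Y → T), K.Cl X c → K.Cl Y d → #X = κ →
      #Y = κ → S.Rel X c Y d) :
    (∃ (X : Type u) (c : X → T), K.Cl X c ∧ #X = κ') ∧
    ∀ (X : Type u) (c : X → T) (Y : Type u) (d : Y → T), K.Cl X c → K.Cl Y d → #X = κ' →
      #Y = κ' → S.Rel X c Y d := by
  classical
  -- members with a prescribed profile
  have mem : ∀ (X : Type u) (c : X → T), K.Cl X c → ∀ t1, χ < #(fib c t1) → ∀ (θ l : Cardinal.{u}),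
      χ < θ → χ ≤ l → l ≤ Order.succ χ → ∃ (Y : Type u) (d : Y → T), K.Cl Y d ∧ #Y = θ ∧
        ∀ t, #(fib d t) = if t = t1 then θ else if #(fib c t) ≤ χ then #(fib c t) else l := by
    intro X c hX t1 ht1 θ l hθ hl1 hl2
    refine reprofile K hχ hT hθ X c hX t1 ht1
      (fun t => if t = t1 then θ else if #(fib c t) ≤ χ then #(fib c t) else l) (by simp) ?_ ?_
    · intro t ht h; simp only [if_neg ht, if_pos h]
    · intro t ht h
      simp only [if_neg ht, if_neg (not_le.2 h)]
      exact ⟨hl1, hl2⟩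
  refine ⟨?_, ?_⟩
  · obtain ⟨X, c, hX, hcX⟩ := hex
    obtain ⟨t1, ht1⟩ := exists_large hχ hT c (by rw [hcX]; exact hκ)
    obtain ⟨Y, d, h1, h2, _⟩ := mem X c hX t1 ht1 κ' χ hκ' le_rfl (Order.le_succ χ)
    exact ⟨Y, d, h1, h2⟩
  -- all large colours are equivalent
  have step : ∀ (X : Type u) (c : X → T), K.Cl X c → ∀ t1 t2, χ < #(fib c t1) → χ < #(fib c t2) →
      PR S (sg t2 χ) (sg t1 χ) := by
    intro X c hX
    have hLL : ∀ t1, χ < #(fib c t1) →
        PR S (fun t => if #(fib c t) ≤ χ then 0 else χ) (sg t1 χ) := by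
      intro t1 ht1
      obtain ⟨Y1, d1, hY1, hc1, hp1⟩ := mem X c hX t1 ht1 κ (Order.succ χ) hκ (Order.le_succ χ) le_rfl
      obtain ⟨Y2, d2, hY2, hc2, hp2⟩ := mem X c hX t1 ht1 κ χ hκ le_rfl (Order.le_succ χ)
      have h1 := PR_of_rel S (hu Y1 d1 Y2 d2 hY1 hY2 hc1 hc2) hp1 hp2
      have h2 := (PR_close S hχ hT (PR_close S hχ hT h1).2).1
      have e1 : (fun t => min (if (if t = t1 then κ else if #(fib c t) ≤ χ then #(fib c t) else
          Order.succ χ) ≤ χ then 0 else (if t = t1 then κ else if #(fib c t) ≤ χ then #(fib c t) else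
          Order.succ χ)) χ) = (fun t => if #(fib c t) ≤ χ then 0 else χ) := by
        funext t
        by_cases ht : t = t1
        · subst ht
          rw [if_pos rfl, if_neg (not_le.2 hκ), if_neg (not_le.2 ht1), min_eq_right hκ.le]
        · rw [if_neg ht]
          by_cases h3 : #(fib c t) ≤ χ
          · rw [if_pos h3, if_pos h3, if_pos h3]; simp
          · rw [if_neg h3, if_neg h3, if_neg (not_le.2 (Order.lt_succ χ)),
              min_eq_right (Order.le_succ χ)]
      have e2 : (fun t => min (if (if t = t1 then κ else if #(fib c t) ≤ χ then #(fib c t) else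
          χ) ≤ χ then 0 else (if t = t1 then κ else if #(fib c t) ≤ χ then #(fib c t) else
          χ)) χ) = sg t1 χ := by
        funext t
        by_cases ht : t = t1
        · subst ht
          rw [if_pos rfl, if_neg (not_le.2 hκ), sg_self, min_eq_right hκ.le]
        · rw [if_neg ht, sg_ne ht]
          by_cases h3 : #(fib c t) ≤ χ
          · rw [if_pos h3, if_pos h3]; simp
          · rw [if_neg h3, if_pos le_rfl]; simp
      rw [e1, e2] at h2
      exact h2
    intro t1 t2 h1 h2
    exact PR_trans (PR_symm (hLL t2 h2)) (hLL t1 h1)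
  -- the normal form
  have normal : ∀ (X : Type u) (c : X → T), K.Cl X c → #X = κ' → ∀ t1, χ < #(fib c t1) →
      PR S (fun t => #(fib c t)) (fun t => min (#(fib c t)) χ + sg t1 κ' t) := by
    intro X c hX hcX t1 ht1
    have h1 : (fun t => #(fib c t)) =
        fun t => min (#(fib c t)) χ + (if #(fib c t) ≤ χ then 0 else #(fib c t)) := by
      funext t
      split_ifs with h
      · rw [min_eq_left h, add_zero]
      · rw [not_le] at h
        rw [min_eq_right h.le, Cardinal.add_eq_right (hχ.trans h.le) h.le]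
    have h2 := PR_gather (S := S) (t1 := t1) hχ (fun t => if #(fib c t) ≤ χ then 0 else #(fib c t))
      (by
        intro s
        by_cases h : #(fib c s) ≤ χ
        · left; simp only [if_pos h]
        · right
          simp only [if_neg h]
          exact ⟨(not_le.1 h).le, step X c hX t1 s ht1 (not_le.1 h)⟩)
    rw [sum_high hχ hT (fun t => #(fib c t)) ((card_eq_sum c).symm.trans hcX) hκ'] at h2
    have h3 := PR_add (PR_refl S (fun t => min (#(fib c t)) χ)) h2
    rw [← h1] at h3
    exact h3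
  intro X c Y d hX hY hcX hcY
  obtain ⟨t1, ht1⟩ := exists_large hχ hT c (by rw [hcX]; exact hκ')
  obtain ⟨s1, hs1⟩ := exists_large hχ hT d (by rw [hcY]; exact hκ')
  obtain ⟨X', c', hX', hcX', hp⟩ := mem X c hX t1 ht1 κ χ hκ le_rfl (Order.le_succ χ)
  obtain ⟨Y', d', hY', hcY', hq⟩ := mem Y d hY s1 hs1 κ χ hκ le_rfl (Order.le_succ χ)
  have h1 := PR_of_rel S (hu X' c' Y' d' hX' hY' hcX' hcY') hp hq
  have h2 := PR_close S hχ hT h1
  have h3 := (PR_close S hχ hT h2.2).1
  have low : ∀ (Z : Type u) (b : Z → T) (r : T), χ < #(fib b r) →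
      (fun t => min (if t = r then κ else if #(fib b t) ≤ χ then #(fib b t) else χ) χ) =
      fun t => min (#(fib b t)) χ := by
    intro Z b r hr
    funext t
    by_cases ht : t = r
    · subst ht
      rw [if_pos rfl, min_eq_right hκ.le, min_eq_right hr.le]
    · rw [if_neg ht]
      by_cases h3 : #(fib b t) ≤ χ
      · rw [if_pos h3]
      · rw [if_neg h3, min_self, min_eq_right (not_le.1 h3).le]
  have high : ∀ (Z : Type u) (b : Z → T) (r : T),
      (fun t => min (if (if t = r then κ else if #(fib b t) ≤ χ then #(fib b t) else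
          χ) ≤ χ then 0 else (if t = r then κ else if #(fib b t) ≤ χ then #(fib b t) else
          χ)) χ) = sg r χ := by
    intro Z b r
    funext t
    by_cases ht : t = r
    · subst ht
      rw [if_pos rfl, if_neg (not_le.2 hκ), sg_self, min_eq_right hκ.le]
    · rw [if_neg ht, sg_ne ht]
      by_cases h3 : #(fib b t) ≤ χ
      · rw [if_pos h3, if_pos h3]; simp
      · rw [if_neg h3, if_pos le_rfl]; simp
  have h4 := h2.1
  rw [low X c t1 ht1, low Y d s1 hs1] at h4
  rw [high X c t1, high Y d s1] at h3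
  have h5 := PR_add h4 (PR_mul hχ h3 hκ'.le)
  have h6 := PR_trans (PR_trans (normal X c hX hcX t1 ht1) h5)
    (PR_symm (normal Y d hY hcY s1 hs1))
  exact h6 X c Y d (fun t => rfl) (fun t => rfl)

end Vale.Agent.P307
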