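import Mathlib
import Vale.Agent.P307.DefsU

/-!
Replacing unary functions by their graphs (helper8).
-/

namespace Vale.Agent.P307

open FirstOrder Cardinal FirstOrder.Language

universe u

namespace Un

variable (L : FirstOrder.Language.{u, u})

/-- the relational vocabulary: the relations of `L`, and a binary relation for every unary
function. -/
def LU : FirstOrder.Language.{u, u} where
  Functions := fun _ => PEmpty
  Relations := fun n => L.Relations n ⊕ {_f : L.Functions 1 // n = 2}

theorem LU_rel : (LU L).IsRelational := fun _ => ⟨fun f => PEmpty.elim f⟩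

instance : (LU L).IsRelational := LU_rel L

theorem LU_zero [UnaryLanguage L] : IsEmpty ((LU L).Relations 0) := by
  have := UnaryLanguage.rel_empty (L := L)
  refine ⟨fun r => ?_⟩
  rcases r with r | ⟨f, h⟩
  · exact this.false r
  · exact absurd h (by norm_num)

variable {L}

/-- the symbol for the graph of `f`. -/
def gs (f : L.Functions 1) : (LU L).Relations 2 := Sum.inr ⟨f, rfl⟩

/-- the symbol of a relation of `L`. -/
def rs {n : ℕ} (r : L.Relations n) : (LU L).Relations n := Sum.inl r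

theorem rel_cases {n : ℕ} (r : (LU L).Relations n) :
    (∃ r' : L.Relations n, r = rs r') ∨ ∃ (h : n = 2) (f : L.Functions 1), r = h ▸ gs f := by
  rcases r with r | ⟨f, h⟩
  · exact Or.inl ⟨r, rfl⟩
  · subst h
    exact Or.inr ⟨rfl, f, rfl⟩

/-- the relations are graphs of functions. -/
def IsG (M : Type u) [(LU L).Structure M] : Prop :=
  ∀ (f : L.Functions 1) (x : M), ∃! y : M, Structure.RelMap (gs f) ![x, y]

open Classical in
/-- the function with the given graph. -/
noncomputable def fn {M : Type u} [(LU L).Structure M] (f : L.Functions 1) (x : M) : M :=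
  if h : ∃ y : M, Structure.RelMap (gs f) ![x, y] then h.choose else x

theorem fn_spec {M : Type u} [(LU L).Structure M] (hM : IsG (L := L) M) (f : L.Functions 1)
    (x : M) : Structure.RelMap (gs f) ![x, fn f x] := by
  have h : ∃ y : M, Structure.RelMap (gs f) ![x, y] := (hM f x).exists
  unfold fn
  rw [dif_pos h]
  exact h.choose_spec

theorem fn_eq {M : Type u} [(LU L).Structure M] (hM : IsG (L := L) M) (f : L.Functions 1)
    (x y : M) : Structure.RelMap (gs f) ![x, y] ↔ y = fn f x := by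
  constructor
  · intro h
    exact (hM f x).unique h (fn_spec hM f x)
  · rintro rfl
    exact fn_spec hM f x

/-- the structure `M` with the functions. -/
def Tl (_L : FirstOrder.Language.{u, u}) (M : Type u) : Type u := M

/-- the structure `M` with the graphs. -/
def Gr (_L : FirstOrder.Language.{u, u}) (M : Type u) : Type u := M

variable (L)

variable [UnaryLanguage L]

noncomputable instance instTl (M : Type u) [(LU L).Structure M] : L.Structure (Tl L M) where
  funMap := fun {n} f v =>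
    if h : n = 1 then fn (M := M) (h ▸ f : L.Functions 1) (v ⟨0, by omega⟩)
    else ((UnaryLanguage.fun_empty n h).false f).elim
  RelMap := fun {_} r v => Structure.RelMap (L := LU L) (M := M) (rs r) v

instance instGr (M : Type u) [L.Structure M] : (LU L).Structure (Gr L M) where
  funMap := fun f _ => PEmpty.elim f
  RelMap := fun {n} r v => match r with
    | Sum.inl r => Structure.RelMap (L := L) (M := M) r v
    | Sum.inr f => Structure.funMap (L := L) (M := M) f.1
        (fun _ => v ⟨0, by have := f.2; omega⟩) = v ⟨1, by have := f.2; omega⟩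

variable {L}

theorem Tl_fun {M : Type u} [(LU L).Structure M] (f : L.Functions 1) (v : Fin 1 → Tl L M) :
    Structure.funMap f v = (show Tl L M from fn (M := M) f (v 0)) := rfl

theorem Tl_rel {M : Type u} [(LU L).Structure M] {n : ℕ} (r : L.Relations n)
    (v : Fin n → Tl L M) :
    Structure.RelMap r v ↔ Structure.RelMap (L := LU L) (M := M) (rs r) v := Iff.rfl

omit [UnaryLanguage L] in
theorem Gr_rel {M : Type u} [L.Structure M] {n : ℕ} (r : L.Relations n)
    (v : Fin n → Gr L M) :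
    Structure.RelMap (rs r) v ↔ Structure.RelMap (L := L) (M := M) r v := Iff.rfl

omit [UnaryLanguage L] in
theorem Gr_gs {M : Type u} [L.Structure M] (f : L.Functions 1) (v : Fin 2 → Gr L M) :
    Structure.RelMap (gs f) v ↔ Structure.funMap (L := L) (M := M) f (fun _ => v 0) = v 1 :=
  Iff.rfl

omit [UnaryLanguage L] in
theorem Gr_isG (M : Type u) [L.Structure M] : IsG (L := L) (Gr L M) := by
  intro f x
  refine ⟨Structure.funMap (L := L) (M := M) f (fun _ => x), ?_, ?_⟩
  · show Structure.RelMap (gs f) _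
    rw [Gr_gs]
    rfl
  · intro y hy
    have hy' : Structure.RelMap (gs f) ![x, y] := hy
    rw [Gr_gs] at hy'
    exact hy'.symm

omit [UnaryLanguage L] in
theorem fn_Gr {M : Type u} [L.Structure M] (f : L.Functions 1) (x : M) :
    fn (M := Gr L M) f x = Structure.funMap (L := L) (M := M) f (fun _ => x) := by
  exact ((fn_eq (Gr_isG M) f x _).1 ((Gr_gs f _).2 rfl)).symm

/-- an equivalence which respects relations and unary functions. -/
def mkEquiv {M N : Type u} [L.Structure M] [L.Structure N] (e : M ≃ N)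
    (hf : ∀ (f : L.Functions 1) (x : M), e (Structure.funMap f (fun _ => x)) =
      Structure.funMap f (fun _ => e x))
    (hr : ∀ {n : ℕ} (r : L.Relations n) (v : Fin n → M),
      Structure.RelMap r (fun i => e (v i)) ↔ Structure.RelMap r v) : M ≃[L] N where
  toEquiv := e
  map_fun' := by
    intro n f v
    by_cases h : n = 1
    · subst h
      have h1 : v = fun _ => v 0 := by
        funext i
        rw [Subsingleton.elim i 0]
      have h2 : (e : M → N) ∘ v = fun _ => e (v 0) := by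
        funext i
        rw [Subsingleton.elim i 0]
        rfl
      show e (Structure.funMap f v) = Structure.funMap f ((e : M → N) ∘ v)
      rw [h2, ← hf, ← h1]
    · exact ((UnaryLanguage.fun_empty n h).false f).elim
  map_rel' := by
    intro n r v
    exact hr r v

/-- an equivalence which respects the relations of `L` and the graphs. -/
def mkEquiv' {M N : Type u} [(LU L).Structure M] [(LU L).Structure N] (e : M ≃ N)
    (hf : ∀ (f : L.Functions 1) (x y : M), Structure.RelMap (gs f) ![e x, e y] ↔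
      Structure.RelMap (gs f) ![x, y])
    (hr : ∀ {n : ℕ} (r : L.Relations n) (v : Fin n → M),
      Structure.RelMap (rs r) (fun i => e (v i)) ↔ Structure.RelMap (rs r) v) : M ≃[LU L] N where
  toEquiv := e
  map_fun' := by
    intro n f v
    exact PEmpty.elim f
  map_rel' := by
    intro n r v
    rcases rel_cases r with ⟨r', rfl⟩ | ⟨h, f, rfl⟩
    · exact hr r' v
    · subst h
      have h1 : v = ![v 0, v 1] := by
        funext i
        fin_cases i <;> rfl
      have h2 : (e : M → N) ∘ v = ![e (v 0), e (v 1)] := by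
        funext i
        fin_cases i <;> rfl
      show Structure.RelMap (gs f) ((e : M → N) ∘ v) ↔ Structure.RelMap (gs f) v
      rw [h2, hf, ← h1]

omit [UnaryLanguage L] in
theorem isG_of_equiv {M N : Type u} [(LU L).Structure M] [(LU L).Structure N] (e : M ≃[LU L] N)
    (hM : IsG (L := L) M) : IsG (L := L) N := by
  intro f x
  have key : ∀ y : N, Structure.RelMap (gs f) ![x, y] ↔
      Structure.RelMap (gs f) ![e.symm x, e.symm y] := by
    intro y
    have h1 := e.symm.map_rel (gs f) ![x, y]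
    rw [← h1]
    have h2 : (e.symm : N → M) ∘ ![x, y] = ![e.symm x, e.symm y] := by
      funext i
      fin_cases i <;> rfl
    rw [h2]
  refine ⟨e (fn f (e.symm x)), ?_, ?_⟩
  · show Structure.RelMap (gs f) _
    rw [key, e.symm_apply_apply]
    exact fn_spec hM f _
  · intro y hy
    have hy' : Structure.RelMap (gs f) ![x, y] := hy
    rw [key, fn_eq hM] at hy'
    rw [← hy', e.apply_symm_apply]

/-- equivalences of the graph structures are equivalences of the function structures. -/
noncomputable def isoT {M N : Type u} [(LU L).Structure M] [(LU L).Structure N] (e : M ≃[LU L] N)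
    (hM : IsG (L := L) M) : Tl L M ≃[L] Tl L N :=
  mkEquiv (M := Tl L M) (N := Tl L N) e.toEquiv
    (by
      intro f x
      show e (fn (M := M) f x) = fn (M := N) f (e x)
      rw [← fn_eq (isG_of_equiv e hM)]
      have h1 := e.map_rel (gs f) ![x, fn (M := M) f x]
      have h2 : (e : M → N) ∘ ![x, fn (M := M) f x] = ![e x, e (fn (M := M) f x)] := by
        funext i
        fin_cases i <;> rfl
      rw [h2] at h1
      exact h1.2 (fn_spec hM f x))
    (by
      intro n r v
      exact e.map_rel (rs r) v)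

/-- and conversely. -/
noncomputable def isoG {M N : Type u} [(LU L).Structure M] [(LU L).Structure N]
    (hM : IsG (L := L) M) (hN : IsG (L := L) N) (e : Tl L M ≃[L] Tl L N) : M ≃[LU L] N :=
  mkEquiv' (M := M) (N := N) e.toEquiv
    (by
      intro f x y
      have h1 : e (Structure.funMap f (fun _ : Fin 1 => (show Tl L M from x))) =
        Structure.funMap f ((e : Tl L M → Tl L N) ∘ (fun _ : Fin 1 => (show Tl L M from x))) :=
        e.map_fun f _
      have h2 : e.toEquiv (fn (M := M) f x) = fn (M := N) f (e.toEquiv x) := h1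
      have h3 : (show N from e.toEquiv y) = fn (M := N) f (e.toEquiv x) ↔
          y = fn (M := M) f x := by
        constructor
        · intro h
          exact e.toEquiv.injective (h.trans h2.symm)
        · intro h
          exact (congrArg e.toEquiv h).trans h2
      exact (fn_eq hN f (e.toEquiv x) (e.toEquiv y)).trans (h3.trans (fn_eq hM f x y).symm))
    (by
      intro n r v
      exact e.map_rel r v)

/-- the identity as an equivalence. -/
noncomputable def isoGr (M : Type u) [L.Structure M] : M ≃[L] Tl L (Gr L M) :=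
  mkEquiv (M := M) (N := Tl L (Gr L M)) (Equiv.refl M)
    (by
      intro f x
      exact (fn_Gr f x).symm)
    (by
      intro n r v
      exact Iff.rfl)

omit [UnaryLanguage L] in
theorem rel_sub {N : Type u} [(LU L).Structure N] (S : (LU L).Substructure N)
    (f : L.Functions 1) (x y : S) :
    Structure.RelMap (gs f) ![x, y] ↔ Structure.RelMap (gs f) ![x.1, y.1] := by
  have h : (fun i => ((![x, y] : Fin 2 → S) i : N)) = ![x.1, y.1] := by
    funext i
    fin_cases i <;> rfl
  rw [← h]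
  exact Iff.rfl

omit [UnaryLanguage L] in
theorem isG_sub {N : Type u} [(LU L).Structure N] (hN : IsG (L := L) N)
    (S : (LU L).Substructure N) (hS : ∀ (f : L.Functions 1), ∀ x ∈ S, fn f x ∈ S) :
    IsG (L := L) S := by
  intro f x
  refine ⟨⟨fn f x.1, hS f _ x.2⟩, ?_, ?_⟩
  · exact (rel_sub S f x ⟨fn f x.1, hS f _ x.2⟩).2 (fn_spec hN f _)
  · intro y hy
    exact Subtype.ext ((fn_eq hN f _ _).1 ((rel_sub S f x y).1 hy))

omit [UnaryLanguage L] in
theorem fn_sub {N : Type u} [(LU L).Structure N] (hN : IsG (L := L) N)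
    (S : (LU L).Substructure N) (hS : IsG (L := L) S) (f : L.Functions 1) (x : S) :
    (fn f x : S).1 = fn f x.1 :=
  (fn_eq hN f _ _).1 ((rel_sub S f x _).1 (fn_spec hS f x))

theorem fn_mem {N : Type u} [(LU L).Structure N] (T : L.Substructure (Tl L N))
    (f : L.Functions 1) (x : N) (hx : (show Tl L N from x) ∈ T) :
    (show Tl L N from fn (M := N) f x) ∈ T :=
  T.fun_mem f (fun _ => (show Tl L N from x)) (fun _ => hx)

/-- a closed set as a substructure. -/
def mkSub {N : Type u} [(LU L).Structure N] (S : Set N)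
    (hS : ∀ (f : L.Functions 1), ∀ x ∈ S, fn f x ∈ S) : L.Substructure (Tl L N) where
  carrier := {x : Tl L N | (show N from x) ∈ S}
  fun_mem := by
    intro n f v hv
    by_cases h : n = 1
    · subst h
      exact hS f _ (hv 0)
    · exact ((UnaryLanguage.fun_empty n h).false f).elim

/-- substructures as structures. -/
noncomputable def isoS {N : Type u} [(LU L).Structure N] (hN : IsG (L := L) N)
    (S : (LU L).Substructure N) (T : L.Substructure (Tl L N))
    (h : ∀ x : N, (show Tl L N from x) ∈ T ↔ x ∈ S) : T ≃[L] Tl L S :=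
  mkEquiv (M := T) (N := Tl L S)
    (Equiv.subtypeEquivRight (p := fun x : N => (show Tl L N from x) ∈ T) (q := fun x => x ∈ S) h)
    (by
      intro f x
      have hS : IsG (L := L) S := isG_sub hN S fun f x hx => (h _).1 (fn_mem T f x ((h x).2 hx))
      exact Subtype.ext (fn_sub hN S hS f ⟨x.1, (h _).1 x.2⟩).symm)
    (by
      intro n r v
      exact Iff.rfl)

theorem isG_sub' {N : Type u} [(LU L).Structure N] (hN : IsG (L := L) N)
    (S : (LU L).Substructure N) (T : L.Substructure (Tl L N))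
    (h : ∀ x : N, (show Tl L N from x) ∈ T ↔ x ∈ S) : IsG (L := L) S :=
  isG_sub hN S fun f x hx => (h _).1 (fn_mem T f x ((h x).2 hx))

variable (K : AEC L)

/-- membership in the class of graph structures. -/
def Mem' (M : Type u) [(LU L).Structure M] : Prop := IsG (L := L) M ∧ K.Mem (Tl L M)

/-- the relation of graph structures. -/
def Le' (N : Type u) [(LU L).Structure N] (S : (LU L).Substructure N) : Prop :=
  IsG (L := L) N ∧ ∃ T : L.Substructure (Tl L N), (∀ x : N, (show Tl L N from x) ∈ T ↔ x ∈ S) ∧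
    K.Le (Tl L N) T

theorem mem_of_le' (N : Type u) [(LU L).Structure N] (S : (LU L).Substructure N)
    (h : Le' K N S) : Mem' K S ∧ Mem' K N := by
  obtain ⟨hN, T, hT, hK⟩ := h
  have h1 := K.mem_of_le _ _ hK
  exact ⟨⟨isG_sub' hN S T hT, K.mem_iso _ _ (isoS hN S T hT) h1.1⟩, hN, h1.2⟩

theorem mem_iso' (M N : Type u) [(LU L).Structure M] [(LU L).Structure N] (e : M ≃[LU L] N)
    (h : Mem' K M) : Mem' K N :=
  ⟨isG_of_equiv e h.1, K.mem_iso _ _ (isoT e h.1) h.2⟩

theorem le_iso' (M N : Type u) [(LU L).Structure M] [(LU L).Structure N] (e : M ≃[LU L] N)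
    (S : (LU L).Substructure M) (h : Le' K M S) : Le' K N (S.map e.toHom) := by
  obtain ⟨hM, T, hT, hK⟩ := h
  refine ⟨isG_of_equiv e hM, _, ?_, K.le_iso _ _ (isoT e hM) _ hK⟩
  intro x
  constructor
  · rintro ⟨y, hy, rfl⟩
    exact ⟨y, (hT y).1 hy, rfl⟩
  · rintro ⟨y, hy, rfl⟩
    exact ⟨y, (hT y).2 hy, rfl⟩

theorem le_refl' (N : Type u) [(LU L).Structure N] (h : Mem' K N) : Le' K N ⊤ := by
  refine ⟨h.1, ⊤, ?_, K.le_refl _ h.2⟩
  intro x
  exact ⟨fun _ => trivial, fun _ => trivial⟩

theorem le_trans' (N : Type u) [(LU L).Structure N] (S : (LU L).Substructure N)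
    (T : (LU L).Substructure S) (h1 : Le' K N S) (h2 : Le' K S T) :
    Le' K N (T.map S.subtype.toHom) := by
  obtain ⟨hN, S1, hS1, hK1⟩ := h1
  obtain ⟨hS, T1, hT1, hK2⟩ := h2
  have h3 := K.le_iso _ _ (isoS hN S S1 hS1).symm _ hK2
  refine ⟨hN, _, ?_, K.le_trans _ _ _ hK1 h3⟩
  intro x
  constructor
  · rintro ⟨y, ⟨z, hz, rfl⟩, rfl⟩
    exact ⟨z, (hT1 z).1 hz, rfl⟩
  · rintro ⟨z, hz, rfl⟩
    exact ⟨(isoS hN S S1 hS1).symm z, ⟨z, (hT1 z).2 hz, rfl⟩, rfl⟩

/-- from a substructure of a substructure. -/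
theorem le_sub (N : Type u) [(LU L).Structure N] (hN : IsG (L := L) N)
    (S T : (LU L).Substructure N) (S1 T1 : L.Substructure (Tl L N))
    (hS : ∀ x : N, (show Tl L N from x) ∈ S1 ↔ x ∈ S)
    (hT : ∀ x : N, (show Tl L N from x) ∈ T1 ↔ x ∈ T)
    (h : Le' K T (S.comap T.subtype.toHom)) : K.Le T1 (S1.comap T1.subtype.toHom) := by
  obtain ⟨-, W, hW, hK⟩ := h
  have h3 := K.le_iso _ _ (isoS hN T T1 hT).symm _ hK
  have h4 : W.map (isoS hN T T1 hT).symm.toHom = S1.comap T1.subtype.toHom := by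
    ext x
    constructor
    · rintro ⟨y, hy, rfl⟩
      exact (hS _).2 ((hW y).1 hy)
    · intro hx
      exact ⟨isoS hN T T1 hT x, (hW _).2 ((hS _).1 hx), rfl⟩
  rw [← h4]
  exact h3

theorem sub_le (N : Type u) [(LU L).Structure N] (hN : IsG (L := L) N)
    (S T : (LU L).Substructure N) (S1 T1 : L.Substructure (Tl L N))
    (hS : ∀ x : N, (show Tl L N from x) ∈ S1 ↔ x ∈ S)
    (hT : ∀ x : N, (show Tl L N from x) ∈ T1 ↔ x ∈ T)
    (h : K.Le T1 (S1.comap T1.subtype.toHom)) : Le' K T (S.comap T.subtype.toHom) := by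
  have h3 := K.le_iso _ _ (isoS hN T T1 hT) _ h
  refine ⟨isG_sub' hN T T1 hT, _, ?_, h3⟩
  intro x
  constructor
  · rintro ⟨y, hy, rfl⟩
    exact (hS _).1 hy
  · intro hx
    exact ⟨(isoS hN T T1 hT).symm x, (hS _).2 hx, rfl⟩

theorem coherence' (N : Type u) [(LU L).Structure N] (S T : (LU L).Substructure N) (hST : S ≤ T)
    (h1 : Le' K N S) (h2 : Le' K N T) : Le' K T (S.comap T.subtype.toHom) := by
  obtain ⟨hN, S1, hS1, hK1⟩ := h1
  obtain ⟨-, T1, hT1, hK2⟩ := h2
  exact sub_le K N hN S T S1 T1 hS1 hT1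
    (K.coherence _ _ _ (fun x hx => (hT1 x).2 (hST ((hS1 x).1 hx))) hK1 hK2)

theorem chain_mem' (U : Type u) [(LU L).Structure U] (ι : Type u) [LinearOrder ι]
    [WellFoundedLT ι] [Nonempty ι] (S : ι → (LU L).Substructure U) (hm : Monotone S)
    (hU : ∀ x, ∃ i, x ∈ S i)
    (h : ∀ i j, i ≤ j → Le' K (S j) ((S i).comap (S j).subtype.toHom)) :
    Mem' K U ∧ ∀ i, Le' K U (S i) := by
  have hSG : ∀ i, IsG (L := L) (S i) := fun i => (h i i le_rfl).1
  have hG : IsG (L := L) U := by
    intro f x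
    obtain ⟨i, hi⟩ := hU x
    refine ⟨(fn f (⟨x, hi⟩ : S i) : S i).1, ?_, ?_⟩
    · exact (rel_sub (S i) f ⟨x, hi⟩ _).1 (fn_spec (hSG i) f ⟨x, hi⟩)
    · intro y hy
      obtain ⟨j, hj⟩ := hU y
      have hi' := hm (le_max_left i j) hi
      have hj' := hm (le_max_right i j) hj
      have h1 := (fn_eq (hSG (max i j)) f ⟨x, hi'⟩ ⟨y, hj'⟩).1 ((rel_sub _ f _ _).2 hy)
      have h2 := (fn_eq (hSG (max i j)) f ⟨x, hi'⟩
        ⟨(fn f (⟨x, hi⟩ : S i) : S i).1, hm (le_max_left i j) (fn f (⟨x, hi⟩ : S i) : S i).2⟩).1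
        ((rel_sub _ f _ _).2 ((rel_sub (S i) f ⟨x, hi⟩ _).1 (fn_spec (hSG i) f ⟨x, hi⟩)))
      exact (congrArg Subtype.val h1).trans (congrArg Subtype.val h2).symm
  have hcl : ∀ i, ∀ (f : L.Functions 1), ∀ x ∈ (S i : Set U), fn f x ∈ (S i : Set U) := by
    intro i f x hx
    have h1 := fn_sub hG (S i) (hSG i) f ⟨x, hx⟩
    rw [← h1]
    exact (fn f (⟨x, hx⟩ : S i) : S i).2
  have h1 := K.chain_mem (Tl L U) ι (fun i => mkSub (S i : Set U) (hcl i))
    (fun i j hij x hx => hm hij hx) hU
    (fun i j hij => le_sub K U hG (S i) (S j) _ _ (fun x => Iff.rfl) (fun x => Iff.rfl)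
      (h i j hij))
  exact ⟨⟨hG, h1.1⟩, fun i => ⟨hG, _, fun x => Iff.rfl, h1.2 i⟩⟩

theorem chain_le' (N : Type u) [(LU L).Structure N] (ι : Type u) [LinearOrder ι]
    [WellFoundedLT ι] [Nonempty ι] (S : ι → (LU L).Substructure N) (hm : Monotone S)
    (h : ∀ i j, i ≤ j → Le' K (S j) ((S i).comap (S j).subtype.toHom))
    (hN : ∀ i, Le' K N (S i)) (T : (LU L).Substructure N) (hT : ∀ x, x ∈ T ↔ ∃ i, x ∈ S i) :
    Le' K N T := by
  have hG : IsG (L := L) N := (hN (Classical.arbitrary ι)).1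
  choose hG' S1 hS1 hK using hN
  have hcl : ∀ (f : L.Functions 1), ∀ x ∈ (T : Set N), fn f x ∈ (T : Set N) := by
    intro f x hx
    obtain ⟨i, hi⟩ := (hT x).1 hx
    exact (hT _).2 ⟨i, (hS1 i _).1 (fn_mem (S1 i) f x ((hS1 i x).2 hi))⟩
  refine ⟨hG, mkSub (T : Set N) hcl, fun x => Iff.rfl, ?_⟩
  refine K.chain_le (Tl L N) ι S1 (fun i j hij x hx => (hS1 j x).2 (hm hij ((hS1 i x).1 hx)))
    (fun i j hij => le_sub K N hG (S i) (S j) _ _ (hS1 i) (hS1 j) (h i j hij)) hK _ ?_
  intro x
  refine (hT x).trans ?_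
  exact ⟨fun ⟨i, hi⟩ => ⟨i, (hS1 i x).2 hi⟩, fun ⟨i, hi⟩ => ⟨i, (hS1 i x).1 hi⟩⟩

omit K in
theorem card_eq : (LU L).card = L.card := by
  apply le_antisymm
  · refine Cardinal.mk_le_of_injective (f := fun s : (LU L).Symbols => (match s with
      | Sum.inl ⟨_, f⟩ => PEmpty.elim f
      | Sum.inr ⟨n, Sum.inl r⟩ => Sum.inr ⟨n, r⟩
      | Sum.inr ⟨_, Sum.inr f⟩ => Sum.inl ⟨1, f.1⟩ : L.Symbols)) ?_
    rintro (⟨n, f⟩ | ⟨n, r | ⟨f, hf⟩⟩) (⟨m, g⟩ | ⟨m, r' | ⟨g, hg⟩⟩) hxy
    all_goals first
      | exact PEmpty.elim f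
      | exact PEmpty.elim g
      | skip
    · simp only [Sum.inr.injEq] at hxy
      cases hxy
      rfl
    · exact absurd hxy (by simp)
    · exact absurd hxy (by simp)
    · subst hf hg
      simp only [Sum.inl.injEq] at hxy
      cases hxy
      rfl
  · refine Cardinal.mk_le_of_injective (f := fun s : L.Symbols => (match s with
      | Sum.inl ⟨n, f⟩ => if h : n = 1 then Sum.inr ⟨2, gs (h ▸ f)⟩
          else ((UnaryLanguage.fun_empty n h).false f).elim
      | Sum.inr ⟨n, r⟩ => Sum.inr ⟨n, rs r⟩ : (LU L).Symbols)) ?_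
    rintro (⟨n, f⟩ | ⟨n, r⟩) (⟨m, g⟩ | ⟨m, r'⟩) hxy
    · by_cases hn : n = 1
      · by_cases hm : m = 1
        · subst hn hm
          have h1 : (Sum.inr ⟨2, gs f⟩ : (LU L).Symbols) = Sum.inr ⟨2, gs g⟩ := hxy
          have h2 : gs f = gs g := by
            have := Sum.inr.inj h1
            exact eq_of_heq (Sigma.mk.inj this).2
          have h3 := Sum.inr.inj h2
          have h4 : f = g := congrArg Subtype.val h3
          rw [h4]
        · exact ((UnaryLanguage.fun_empty m hm).false g).elim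
      · exact ((UnaryLanguage.fun_empty n hn).false f).elim
    · by_cases hn : n = 1
      · subst hn
        have h1 : (Sum.inr ⟨2, gs f⟩ : (LU L).Symbols) = Sum.inr ⟨m, rs r'⟩ := hxy
        have h2 := Sigma.mk.inj (Sum.inr.inj h1)
        obtain ⟨h3, h4⟩ := h2
        subst h3
        exact absurd (eq_of_heq h4) (by simp [gs, rs])
      · exact ((UnaryLanguage.fun_empty n hn).false f).elim
    · by_cases hm : m = 1
      · subst hm
        have h1 : (Sum.inr ⟨n, rs r⟩ : (LU L).Symbols) = Sum.inr ⟨2, gs g⟩ := hxy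
        have h2 := Sigma.mk.inj (Sum.inr.inj h1)
        obtain ⟨h3, h4⟩ := h2
        subst h3
        exact absurd (eq_of_heq h4) (by simp [gs, rs])
      · exact ((UnaryLanguage.fun_empty m hm).false g).elim
    · have h1 : (Sum.inr ⟨n, rs r⟩ : (LU L).Symbols) = Sum.inr ⟨m, rs r'⟩ := hxy
      have h2 := Sigma.mk.inj (Sum.inr.inj h1)
      obtain ⟨h3, h4⟩ := h2
      subst h3
      have h5 := Sum.inl.inj (eq_of_heq h4)
      rw [h5]

theorem exLS (ℓ : Cardinal.{u}) (h : K.IsLS ℓ) (M : Type u) [(LU L).Structure M]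
    (hM : Mem' K M) (A : Set M) :
    ∃ S : (LU L).Substructure M, A ⊆ S ∧ Le' K M S ∧ #S ≤ #A + ℓ := by
  obtain ⟨T, hT1, hT2, hT3⟩ := h.2.2 (Tl L M) hM.2 A
  refine ⟨⟨{x : M | (show Tl L M from x) ∈ T}, fun {n} f => PEmpty.elim f⟩, hT1, ⟨hM.1, T, fun x => Iff.rfl, hT2⟩, hT3⟩

/-- the class of graph structures. -/
noncomputable def tr : AEC (LU L) where
  Mem := fun M _ => Mem' K M
  Le := fun N _ S => Le' K N S
  mem_of_le := fun N _ S h => mem_of_le' K N S h
  mem_iso := fun M N _ _ e h => mem_iso' K M N e h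
  le_iso := fun M N _ _ e S h => le_iso' K M N e S h
  le_refl := fun N _ h => le_refl' K N h
  le_trans := fun N _ S T h1 h2 => le_trans' K N S T h1 h2
  coherence := fun N _ S T hST h1 h2 => coherence' K N S T hST h1 h2
  chain_mem := fun U _ ι _ _ _ S hS hU h => chain_mem' K U ι S hS hU h
  chain_le := fun N _ ι _ _ _ S hS h hN T hT => chain_le' K N ι S hS h hN T hT
  exists_ls := by
    obtain ⟨ℓ, h1, h2, h3⟩ := K.exists_ls
    refine ⟨ℓ, h1, ?_, fun M _ hM A => exLS K ℓ ⟨h1, h2, h3⟩ M hM A⟩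
    rw [card_eq]
    exact h2

theorem mem_Gr (M : Type u) [L.Structure M] (h : K.Mem M) : (tr K).Mem (Gr L M) :=
  ⟨Gr_isG M, K.mem_iso _ _ (isoGr M) h⟩

theorem isLS_iff (ℓ : Cardinal.{u}) : K.IsLS ℓ ↔ (tr K).IsLS ℓ := by
  constructor
  · intro h
    refine ⟨h.1, ?_, fun M _ hM A => exLS K ℓ h M hM A⟩
    rw [card_eq]
    exact h.2.1
  · intro h
    refine ⟨h.1, ?_, fun M _ hM A => ?_⟩
    · have h1 := h.2.1
      rw [card_eq] at h1
      exact h1
    · obtain ⟨S, hS1, ⟨hG, T, hT, hK⟩, hS3⟩ := h.2.2 (Gr L M) (mem_Gr K M hM) A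
      have h1 := K.le_iso _ _ (isoGr M).symm _ hK
      refine ⟨_, ?_, h1, ?_⟩
      · intro x hx
        exact ⟨x, (hT x).2 (hS1 hx), rfl⟩
      · refine le_trans ?_ hS3
        refine Cardinal.mk_le_of_injective (f := fun x => ⟨x.1, ?_⟩) ?_
        · obtain ⟨y, hy, hyx⟩ := x.2
          rw [← hyx]
          exact (hT y).1 hy
        · intro x y hxy
          have h4 := congrArg (fun z => z.1) hxy
          exact Subtype.ext h4

theorem cat_iff (κ : Cardinal.{u}) : K.Categorical κ ↔ (tr K).Categorical κ := by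
  constructor
  · rintro ⟨⟨M, i1, hM, hκ⟩, h⟩
    refine ⟨⟨Gr L M, inferInstance, mem_Gr K M hM, hκ⟩, ?_⟩
    intro A B _ _ hA hB hA1 hB1
    obtain ⟨f⟩ := h (Tl L A) (Tl L B) hA.2 hB.2 hA1 hB1
    exact ⟨isoG hA.1 hB.1 f⟩
  · rintro ⟨⟨M, i1, hM, hκ⟩, h⟩
    refine ⟨⟨Tl L M, inferInstance, hM.2, hκ⟩, ?_⟩
    intro A B _ _ hA hB hA1 hB1
    obtain ⟨f⟩ := h (Gr L A) (Gr L B) (mem_Gr K A hA) (mem_Gr K B hB) hA1 hB1
    exact ⟨((isoGr B).symm.comp (isoT f (Gr_isG A))).comp (isoGr A)⟩

omit K [UnaryLanguage L] in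
theorem copies_gs (I M : Type u) [(LU L).Structure M] (f : L.Functions 1)
    (x y : Copies I M) : Structure.RelMap (gs f) ![x, y] ↔
      x.1 = y.1 ∧ Structure.RelMap (gs f) ![x.2, y.2] := by
  have h0 : (fun k => ((![x, y] : Fin 2 → Copies I M) k).2) = ![x.2, y.2] := by
    funext i
    fin_cases i <;> rfl
  constructor
  · rintro ⟨i, h1, h2⟩
    rw [h0] at h2
    exact ⟨(h1 0).trans (h1 1).symm, h2⟩
  · rintro ⟨h1, h2⟩
    refine ⟨y.1, ?_, ?_⟩
    · intro k
      fin_cases k
      · exact h1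
      · rfl
    · rw [h0]
      exact h2

omit K [UnaryLanguage L] in
theorem copies_isG (I M : Type u) [(LU L).Structure M] (hM : IsG (L := L) M) :
    IsG (L := L) (Copies I M) := by
  intro f x
  refine ⟨(x.1, fn f x.2), ?_, ?_⟩
  · exact (copies_gs I M f x (x.1, fn f x.2)).2 ⟨rfl, fn_spec hM f _⟩
  · intro y hy
    have h1 := (copies_gs I M f x y).1 hy
    have h2 := (fn_eq hM f x.2 y.2).1 h1.2
    exact Prod.ext h1.1.symm h2

theorem closed (h : K.ClosedCopiesU) : (tr K).ClosedCopies := by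
  intro M _ hM I _
  have hG := copies_isG I M hM.1
  refine ⟨hG, ?_⟩
  have h1 := h (Tl L M) hM.2 I
  refine K.mem_iso _ _ ?_ h1
  refine mkEquiv (M := CopiesU I (Tl L M)) (N := Tl L (Copies I M)) (Equiv.refl (I × M)) ?_ ?_
  · intro f x
    have h2 : ((x.1, fn (M := M) f x.2) : Copies I M) = fn (M := Copies I M) f x :=
      (fn_eq hG f x (x.1, fn (M := M) f x.2)).1
        ((copies_gs I M f x (x.1, fn f x.2)).2 ⟨rfl, fn_spec hM.1 f _⟩)
    exact h2
  · intro n r v
    exact Iff.rfl

end Un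

theorem stmtUn : StmtUn.{u} := by
  intro L _ K hK
  exact ⟨Un.LU L, Un.LU_rel L, Un.LU_zero L, Un.tr K, Un.closed K hK, Un.isLS_iff K, Un.cat_iff K⟩

end Vale.Agent.P307
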