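import Mathlib
import Vale.Agent.P307.DefsU
import Vale.Agent.P307.Copies2

/-!
Transfer of categoricity above `LS(K)` for classes closed under disjoint copies, in vocabularies
with unary functions.
-/

namespace Vale.Agent.P307

open FirstOrder Cardinal FirstOrder.Language

universe u

theorem closedCopiesU (hUn : StmtUn.{u}) (L : FirstOrder.Language.{u, u}) [UnaryLanguage L]
    (K : AEC L) (hK : K.ClosedCopiesU) (κ κ' : Cardinal.{u}) (hκ : K.LS < κ) (hκ' : K.LS < κ')
    (h : K.Categorical κ) : K.Categorical κ' := by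
  obtain ⟨L', i1, i2, K', h1, h2, h3⟩ := hUn L K hK
  have hLS : K.LS = K'.LS := by
    have h4 : {ℓ | K.IsLS ℓ} = {ℓ | K'.IsLS ℓ} := Set.ext (fun ℓ => h2 ℓ)
    show sInf {ℓ | K.IsLS ℓ} = sInf {ℓ | K'.IsLS ℓ}
    rw [h4]
  rw [hLS] at hκ hκ'
  rw [h3] at h ⊢
  exact closedCopies2 K' h1 κ κ' hκ hκ' h

end Vale.Agent.P307
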